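import Vale.Agent.P028.MathlibUsed
import Vale.Agent.P028.H309.ColN
import Vale.Agent.P028.H74.Cut
attribute [-instance] ProperSMul.toContinuousSMul IsTopologicalTorsor.toContinuousSMul IdemSemiring.toCanonicallyOrderedAdd IdemSemiring.toMulLeftMono IdemSemiring.toMulRightMono AddQuantale.instAddLeftMono AddQuantale.instAddRightMono Quantale.instMulLeftMono Quantale.instMulRightMono FiniteDimensional.rclike_to_real IsScalarTower.complexToReal FiniteDimensional.complexToReal

/-!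
# The fields of the structure `LkP` for numbers: leaks at the primes `> x`

`S` : groups with numbers `ν e`, adoption stages `cc e`; the images of `e` are the filled numbers
`ν e / m`, with the weight `wL … i (cc e) (ν e) m` at the stage `i`.
-/

namespace Vale.P028.SK

open Finset CF RN H669

variable {g : Cfg} {c1 c : ℝ}

/-! ### Masses -/

/-- the natural mass of the numbers composed of given primes, with the cut dilution as weight -/
theorem cut_tot_mass (h1 : 0 < c1) (hc : 0 ≤ c) {R b e : ℕ} {T : Finset ℕ}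
    (hT : ∀ m ∈ T, m ≠ 0 ∧ ∀ p ∈ m.primeFactors, p ≤ N g) :
    ∑ m ∈ T, (∏ p ∈ m.primeFactors, dl (muw g c1 R) (uw g R) c b e (N g - p)) / m.totient ≤
      Real.exp (2 * c * c1) := by
  classical
  have hμ := muw_nonneg (g := g) h1.le R
  set d : ℕ → ℝ := fun p => dl (muw g c1 R) (uw g R) c b e (N g - p) with hd
  have hd0 : ∀ p, 0 ≤ d p := fun p => dl_nonneg hc hμ _ _ _
  set h : ℕ → ℝ := fun p => (1 - 1 / (p : ℝ))⁻¹ * d p with hh
  have hh0 : ∀ p, 0 ≤ h p := by
    intro p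
    refine mul_nonneg (inv_nonneg.2 ?_) (hd0 p)
    rcases Nat.eq_zero_or_pos p with rfl | hp
    · norm_num
    · have hp1 : (1 : ℝ) ≤ p := by exact_mod_cast hp
      have : 1 / (p : ℝ) ≤ 1 := by
        rw [div_le_one (by linarith)]
        exact hp1
      linarith
  set U : Finset ℕ := T.biUnion (fun m => m.primeFactors) with hU
  have hUp : ∀ p ∈ U, p.Prime ∧ p ≤ N g := by
    intro p hp
    obtain ⟨m, hm, hpm⟩ := mem_biUnion.1 hp
    exact ⟨Nat.prime_of_mem_primeFactors hpm, (hT m hm).2 p hpm⟩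
  have key : ∑ m ∈ T, (∏ p ∈ m.primeFactors, d p) / m.totient = ∑ m ∈ T, wA h m := by
    refine sum_congr rfl fun m hm => ?_
    have hm0 : 0 < m := Nat.pos_of_ne_zero (hT m hm).1
    have h3 : (1 : ℝ) / m.totient = NT.Gn m * (m : ℝ)⁻¹ := by
      have h4 := Gn_tot hm0
      have h5 : (0 : ℝ) < m.totient := by exact_mod_cast Nat.totient_pos.2 hm0
      have h6 : (0 : ℝ) < m := by exact_mod_cast hm0
      field_simp
      linarith
    have h4 : wA h m = (∏ p ∈ m.primeFactors, d p) * (NT.Gn m * (m : ℝ)⁻¹) := by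
      unfold wA NT.Gn
      rw [← mul_assoc, ← prod_mul_distrib]
      congr 1
      exact prod_congr rfl fun p _ => by rw [hh]; ring
    rw [h4, ← h3]
    ring
  rw [key]
  have h5 := sum_wA_exp hh0 (d := d) (U := U) (T := T) (x := c * c1 / 2)
    (fun p hp => ⟨(hUp p hp).1, hd0 p, rfl⟩)
    (fun m hm => ⟨(hT m hm).1, fun p hp => mem_biUnion.2 ⟨m, hm, hp⟩⟩)
    (cut_mass h1 hc fun p hp => ⟨(hUp p hp).1.pos, (hUp p hp).2⟩)
  refine h5.trans (le_of_eq ?_)
  congr 1
  ring

/-! ### The weights of the images -/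

open Classical in
/-- the weight of the fill `m` of `R` at the stage `i`; adoption stage `a` -/
noncomputable def wL (g : Cfg) (c1 c : ℝ) (x i a R m : ℕ) : ℝ :=
  if Fil g x i R m then wf g c1 c x a R m else 0

variable {x a i R m : ℕ}

theorem wL_nonneg (h1 : 0 ≤ c1) (hc : 0 ≤ c) (x i a R m : ℕ) : 0 ≤ wL g c1 c x i a R m := by
  unfold wL
  split_ifs
  · exact wf_nonneg h1 hc _ _ _ _
  · exact le_rfl

theorem wL_of (h : Fil g x i R m) : wL g c1 c x i a R m = wf g c1 c x a R m := if_pos h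

theorem wL_ne (h : wL g c1 c x i a R m ≠ 0) : Fil g x i R m := by
  unfold wL at h
  by_contra hcon
  exact h (if_neg hcon)

/-- the weights decrease with the stage -/
theorem wL_anti (h1 : 0 ≤ c1) (hc : 0 ≤ c) {j : ℕ} (hij : i ≤ j) :
    wL g c1 c x j a R m ≤ wL g c1 c x i a R m := by
  by_cases h : Fil g x j R m
  · rw [wL_of h, wL_of (h.stage_le hij)]
  · unfold wL
    rw [if_neg h]
    split_ifs
    · exact wf_nonneg h1 hc _ _ _ _
    · exact le_rfl

/-- the weight at a stage is at most the weight at the adoption stage -/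
theorem wL_mono (h1 : 0 < c1) (hc : 0 ≤ c) (hai : a ≤ i) :
    wL g c1 c x i a R m ≤ wL g c1 c x a a R m := wL_anti h1.le hc hai

/-- **the mass of the images** -/
theorem wL_massT (h1 : 0 < c1) (hc : 0 ≤ c) (hR : 0 < R) (T : Finset ℕ) :
    ∑ m ∈ T, wL g c1 c x i a R m * f g (R / m) ≤ Real.exp (2 * c * c1) * f g R := by
  classical
  have hfR : 0 ≤ f g R := f_nonneg g R
  have e1 : ∑ m ∈ T, wL g c1 c x i a R m * f g (R / m) =
      ∑ m ∈ T.filter (fun m => Fil g x i R m), wf g c1 c x a R m * f g (R / m) := by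
    rw [sum_filter]
    refine sum_congr rfl fun m _ => ?_
    unfold wL
    split_ifs
    · rfl
    · rw [zero_mul]
  rw [e1]
  calc ∑ m ∈ T.filter (fun m => Fil g x i R m), wf g c1 c x a R m * f g (R / m)
      ≤ ∑ m ∈ T.filter (fun m => Fil g x i R m), wf g c1 c x a R m / m.totient * f g R := by
        refine sum_le_sum fun m hm => ?_
        have h := (mem_filter.1 hm).2
        calc wf g c1 c x a R m * f g (R / m) ≤ wf g c1 c x a R m * (f g R / m.totient) :=
              mul_le_mul_of_nonneg_left (f_div_le hR h.dvd) (wf_nonneg h1.le hc _ _ _ _)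
          _ = _ := by ring
    _ = (∑ m ∈ T.filter (fun m => Fil g x i R m), wf g c1 c x a R m / m.totient) * f g R := by
        rw [sum_mul]
    _ ≤ _ := by
        refine mul_le_mul_of_nonneg_right ?_ hfR
        exact cut_tot_mass h1 hc fun m hm =>
          ⟨(mem_filter.1 hm).2.m_pos.ne', fun p hp => (mem_filter.1 hm).2.le_N hp⟩

/-- **the mass of the images**, literal form -/
theorem wL_mass (h1 : 0 < c1) (hc : 0 ≤ c) (hR : 0 < R) (n : ℕ) :
    ∑ m ∈ Icc 1 n, wL g c1 c x a a R m * f g (R / m) ≤ Real.exp (2 * c * c1) * f g R :=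
  wL_massT h1 hc hR _

/-- **the images outside the stage `i`** : `T` is closed under taking the part of a number at the
primes `≤ z g i`; `D` is constant on the classes of the stage `i`. -/
theorem wL_outT (h1 : 0 < c1) (hc : 0 ≤ c) {j : ℕ} (hji : j ≤ i) {T : Finset ℕ}
    (hT : ∀ m ∈ T, prt (fun p => p ≤ z g i) m ∈ T) {D : ℕ → ℝ}
    (hD0 : ∀ m ∈ T, Fil g x j R m → 0 ≤ D (R / m))
    (hD : ∀ m ∈ T, Fil g x j R m → D (R / m) = D (R / prt (fun p => p ≤ z g i) m)) :
    ∑ m ∈ T, wL g c1 c x j a R m * (f g (R / m) * D (R / m)) ≤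
      Real.exp (2 * c * c1) * ∑ m ∈ T, wL g c1 c x i a R m * (f g (R / m) * D (R / m)) := by
  classical
  set F := T.filter (fun m => Fil g x j R m) with hF
  have e1 : ∑ m ∈ T, wL g c1 c x j a R m * (f g (R / m) * D (R / m)) =
      ∑ m ∈ F, wf g c1 c x a R m * (f g (R / m) * D (R / m)) := by
    rw [hF, sum_filter]
    refine sum_congr rfl fun m _ => ?_
    unfold wL
    split_ifs
    · rfl
    · rw [zero_mul]
  have hmaps : ∀ m ∈ F, prt (fun p => p ≤ z g i) m ∈ T := fun m hm => hT m (mem_filter.1 hm).1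
  rw [e1, ← sum_fiberwise_of_maps_to hmaps, mul_sum]
  refine sum_le_sum fun k hk => ?_
  have hRHS : 0 ≤ wL g c1 c x i a R k * (f g (R / k) * D (R / k)) := by
    by_cases hL : wL g c1 c x i a R k = 0
    · rw [hL, zero_mul]
    · exact mul_nonneg (wL_nonneg h1.le hc _ _ _ _ _) (mul_nonneg (f_nonneg g _)
        (hD0 k hk ((wL_ne hL).stage_le hji)))
  set Fk := F.filter (fun m => prt (fun p => p ≤ z g i) m = k) with hFk
  rcases Fk.eq_empty_or_nonempty with hemp | ⟨m₀, hm₀⟩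
  · rw [hemp, sum_empty]
    exact mul_nonneg (Real.exp_pos _).le hRHS
  -- data of the elements of the fibre
  have hdat : ∀ m ∈ Fk, m ∈ T ∧ Fil g x j R m ∧ prt (fun p => p ≤ z g i) m = k ∧
      k * prt (fun p => ¬ p ≤ z g i) m = m ∧ Nat.Coprime k (prt (fun p => ¬ p ≤ z g i) m) := by
    intro m hm
    obtain ⟨hm1, hm2⟩ := mem_filter.1 hm
    obtain ⟨hm3, hm4⟩ := mem_filter.1 hm1
    have h2 := prt_mul (fun p => p ≤ z g i) hm4.m_pos.ne'
    have h3 := prt_coprime (fun p => p ≤ z g i) m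
    rw [hm2] at h2 h3
    exact ⟨hm3, hm4, hm2, h2, h3⟩
  obtain ⟨-, hF0, hk0, -, -⟩ := hdat m₀ hm₀
  have hFk' : Fil g x i R k := hk0 ▸ hF0.prt_stage i
  have hwk : 0 ≤ wf g c1 c x a R k := wf_nonneg h1.le hc _ _ _ _
  rw [wL_of hFk'] at hRHS ⊢
  have hRk : 0 < R / k := hFk'.div_pos
  have hfk := f_nonneg g (R / k)
  -- one term
  have hterm : ∀ m ∈ Fk, wf g c1 c x a R m * (f g (R / m) * D (R / m)) ≤
      wf g c1 c x a R k * (f g (R / k) * D (R / k)) *
        (wf g c1 c x a R (prt (fun p => ¬ p ≤ z g i) m) /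
          (prt (fun p => ¬ p ≤ z g i) m).totient) := by
    intro m hm
    obtain ⟨b1, b2, b3, b4, b5⟩ := hdat m hm
    set m' := prt (fun p => ¬ p ≤ z g i) m with hm'
    have hDm : D (R / m) = D (R / k) := by rw [hD m b1 b2, b3]
    have hD0m : 0 ≤ D (R / k) := by
      rw [← hDm]
      exact hD0 m b1 b2
    have e2 : R / m = R / k / m' := by rw [Nat.div_div_eq_div_mul, b4]
    have hd : m' ∣ R / k := by
      have h3 : k * m' ∣ R := by rw [b4]; exact b2.dvd
      exact Nat.dvd_div_of_mul_dvd h3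
    have h4 : f g (R / m) ≤ f g (R / k) / m'.totient := by
      rw [e2]
      exact f_div_le hRk hd
    have e3 : wf g c1 c x a R m = wf g c1 c x a R k * wf g c1 c x a R m' := by
      rw [← wf_mul b5, b4]
    have hw' : 0 ≤ wf g c1 c x a R m' := wf_nonneg h1.le hc _ _ _ _
    rw [hDm, e3]
    calc wf g c1 c x a R k * wf g c1 c x a R m' * (f g (R / m) * D (R / k))
        ≤ wf g c1 c x a R k * wf g c1 c x a R m' * (f g (R / k) / m'.totient * D (R / k)) :=
          mul_le_mul_of_nonneg_left (mul_le_mul_of_nonneg_right h4 hD0m) (mul_nonneg hwk hw')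
      _ = _ := by ring
  refine (sum_le_sum hterm).trans ?_
  rw [← mul_sum, mul_comm]
  refine mul_le_mul_of_nonneg_right ?_ hRHS
  -- the mass of the outer parts
  have hinj : Set.InjOn (fun m => prt (fun p => ¬ p ≤ z g i) m) (Fk : Set ℕ) := by
    intro m hm m' hm' h
    have h2 := (hdat m hm).2.2.2.1
    have h3 := (hdat m' hm').2.2.2.1
    simp only at h
    rw [← h2, ← h3, h]
  rw [← sum_image (f := fun m => wf g c1 c x a R m / (m.totient : ℝ)) hinj]
  refine cut_tot_mass h1 hc fun v hv => ?_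
  obtain ⟨m, hm, rfl⟩ := mem_image.1 hv
  refine ⟨(prt_pos _ _).ne', fun p hp => ?_⟩
  rw [prt_primeFactors, mem_filter] at hp
  exact (hdat m hm).2.1.le_N hp.1

/-- **the images outside the stage `i`**, literal form -/
theorem wL_out (h1 : 0 < c1) (hc : 0 ≤ c) (hx : zs g ≤ x) (hai : a ≤ i) (n : ℕ) (D : ℕ → ℝ)
    (hD : ∀ m, Fil g x a R m → 0 ≤ D (R / m))
    (hDc : ∀ m m', Fil g x a R m → Fil g x a R m' → Sf g i (R / m) (R / m') →
      D (R / m) = D (R / m')) :
    ∑ m ∈ Icc 1 n, wL g c1 c x a a R m * (f g (R / m) * D (R / m)) ≤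
      Real.exp (2 * c * c1) *
        ∑ m ∈ Icc 1 n, wL g c1 c x i a R m * (f g (R / m) * D (R / m)) := by
  refine wL_outT h1 hc hai (fun m hm => ?_) (fun m _ h => hD m h) fun m _ h =>
    hDc m _ h (h.prt_le _) (h.Sf_prt hx i)
  have h2 := mem_Icc.1 hm
  refine mem_Icc.2 ⟨prt_pos _ _, le_trans ?_ h2.2⟩
  have h3 := prt_mul (fun p => p ≤ z g i) (show m ≠ 0 by omega)
  exact Nat.le_of_dvd (by omega) ⟨_, h3.symm⟩

/-! ### The column -/

open Classical in
/-- the column of pairs -/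
theorem col_pairs (h1 : 0 < c1) (hz : 2 ≤ c1 * zs g) (hc : 0 ≤ c) (hc1 : c < 1)
    (hx : zs g ≤ x) {β : Type*} {S : Finset β} {ν cc : β → ℕ} (hν : Set.InjOn ν S)
    (hE : ∀ e ∈ S, ∀ p, (Qc g (ν e)).factorization p ≤ Eb g) (T : Finset ℕ) (i y : ℕ) :
    ∑ e ∈ ((S.filter (fun e => cc e ≤ i)) ×ˢ T).filter (fun e => ν e.1 / e.2 = y),
      wL g c1 c x i (cc e.1) (ν e.1) e.2 ≤ 1 / (1 - c) := by
  set E := ((S.filter (fun e => cc e ≤ i)) ×ˢ T).filter (fun e => ν e.1 / e.2 = y) with hE'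
  set E1 := E.filter (fun e => Fil g x i (ν e.1) e.2) with hE1
  have e1 : ∑ e ∈ E, wL g c1 c x i (cc e.1) (ν e.1) e.2 =
      ∑ e ∈ E1, wf g c1 c x (cc e.1) (ν e.1) e.2 := by
    have h2 := sum_filter (s := E) (fun e => Fil g x i (ν e.1) e.2)
      (fun e => wf g c1 c x (cc e.1) (ν e.1) e.2)
    rw [hE1, h2]
    refine sum_congr rfl fun e _ => ?_
    unfold wL
    split_ifs
    · rfl
    · rfl
  have hmem : ∀ e ∈ E1, e.1 ∈ S ∧ cc e.1 ≤ i ∧ ν e.1 / e.2 = y ∧ Fil g x i (ν e.1) e.2 := by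
    intro e he
    obtain ⟨he1, he2⟩ := mem_filter.1 he
    obtain ⟨he3, he4⟩ := mem_filter.1 he1
    obtain ⟨he5, -⟩ := mem_product.1 he3
    obtain ⟨he6, he7⟩ := mem_filter.1 he5
    exact ⟨he6, he7, he4, he2⟩
  have hy : ∀ e ∈ E1, ν e.1 = y * e.2 := fun e he => by
    obtain ⟨-, -, h3, h4⟩ := hmem e he
    rw [← h3]
    exact h4.mul_div.symm
  rw [e1]
  refine col_num (i := i) h1 hz hc hc1 hx E1 y (fun e => ν e.1) (fun e => e.2)
    (fun e => cc e.1) ?_ (fun e he => (hmem e he).2.1) (fun e he => (hmem e he).2.2.2) hy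
    (fun e he => hE _ (hmem e he).1)
  intro e he e' he' h
  have he := Finset.mem_coe.1 he
  have he' := Finset.mem_coe.1 he'
  have h2 : e.1 = e'.1 := hν (hmem e he).1 (hmem e' he').1 h
  have h3 := hy e he
  have h4 := hy e' he'
  have hpos : 0 < y := by
    rw [← (hmem e he).2.2.1]
    exact (hmem e he).2.2.2.div_pos
  have h5 : y * e.2 = y * e'.2 := by rw [← h3, ← h4, h2]
  exact Prod.ext h2 (Nat.eq_of_mul_eq_mul_left hpos h5)

open Classical in
/-- the column of pairs, literal form -/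
theorem wL_col (h1 : 0 < c1) (hz : 2 ≤ c1 * zs g) (hc : 0 ≤ c) (hc1 : c < 1)
    (hx : zs g ≤ x) {β : Type*} (S : Finset β) (nu cc : β → ℕ) (hinj : Set.InjOn nu S)
    (hgd : ∀ e ∈ S, ∀ p, (Qc g (nu e)).factorization p ≤ Eb g) (i y n : ℕ) :
    ∑ e ∈ ((S.filter (fun e => cc e ≤ i)) ×ˢ Icc 1 n).filter (fun e => nu e.1 / e.2 = y),
      wL g c1 c x i (cc e.1) (nu e.1) e.2 ≤ 1 / (1 - c) :=
  col_pairs h1 hz hc hc1 hx hinj hgd _ i y

end Vale.P028.SK
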