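import Vale.Agent.P028.MathlibUsed
import Vale.Agent.P028.H309.OutN
import Vale.Agent.P028.H734.LeakP
attribute [-instance] ProperSMul.toContinuousSMul IsTopologicalTorsor.toContinuousSMul IdemSemiring.toCanonicallyOrderedAdd IdemSemiring.toMulLeftMono IdemSemiring.toMulRightMono AddQuantale.instAddLeftMono AddQuantale.instAddRightMono Quantale.instMulLeftMono Quantale.instMulRightMono FiniteDimensional.rclike_to_real IsScalarTower.complexToReal FiniteDimensional.complexToReal

/-!
# The structure `LkP` for numbers: the instance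
-/

namespace Vale.P028.SK

open Finset CF RN H669

variable {g : Cfg} {c1 c : ℝ} {x : ℕ}

/-- **THE INSTANCE**: leaks of a family of groups with injective numbers. -/
theorem lkp_num (h1 : 0 < c1) (hz : 2 ≤ c1 * zs g) (hc : 0 ≤ c) (hc1 : c < 1)
    (hx : zs g ≤ x) {β : Type*} {S : Finset β} {ν cc : β → ℕ} (hν : Set.InjOn ν S)
    (hpos : ∀ e ∈ S, 0 < ν e) (hE : ∀ e ∈ S, ∀ p, (Qc g (ν e)).factorization p ≤ Eb g)
    {X T : Finset ℕ} (hT : ∀ m ∈ T, ∀ t, prt (fun p => p ≤ t) m ∈ T)
    (hX : ∀ e ∈ S, ∀ m ∈ T, Fil g x (cc e) (ν e) m → ν e / m ∈ X) (p : ℝ) :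
    Dp.LkP X (Sf g) (f g) S T cc (fun e => f g (ν e)) (fun e m => ν e / m)
      (fun i e m => wL g c1 c x i (cc e) (ν e) m) (fun _ _ => 1) p (Real.exp (2 * c * c1))
      (Real.exp (2 * c * c1)) (1 / (1 - c)) where
  L_nonneg := fun i e _ m _ => wL_nonneg h1.le hc _ _ _ _ _
  μ_pos := fun _ _ _ _ => one_pos
  mem := fun e he m hm h => hX e he m hm (wL_ne h)
  mono := fun e _ i hi m _ => wL_anti h1.le hc hi
  mass := by
    intro e he
    simp only [Real.one_rpow, mul_one]
    exact wL_massT h1 hc (hpos e he) T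
  out := by
    intro e he i hi D hD0 hD
    refine wL_outT h1 hc hi (fun m hm => hT m hm _) (fun m hm h => hD0 _ (hX e he m hm h))
      fun m hm h => ?_
    refine hD _ (hX e he m hm h) _ (hX e he _ (hT m hm _) (h.prt_le _)) ?_
    exact h.Sf_prt hx i
  col := by
    intro i y _
    have h := col_pairs (cc := cc) h1 hz hc hc1 hx hν hE T i y
    simp only [mul_one]
    convert h

end Vale.P028.SK
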