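import Vale.Agent.P028.MathlibUsed
import Vale.Agent.P028.H758.XTree
attribute [-instance] ProperSMul.toContinuousSMul IsTopologicalTorsor.toContinuousSMul IdemSemiring.toCanonicallyOrderedAdd IdemSemiring.toMulLeftMono IdemSemiring.toMulRightMono AddQuantale.instAddLeftMono AddQuantale.instAddRightMono Quantale.instMulLeftMono Quantale.instMulRightMono FiniteDimensional.rclike_to_real IsScalarTower.complexToReal FiniteDimensional.complexToReal

/-!
# The tree lemma for pairs of numbers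

The sum of `(cofac a b * cofac b a) ^ (-5 / 12)` over the numbers `b` which form an alive pair with a
fixed number `a` (at the primes `> zs` the larger exponent is a deficit) is bounded, if `a` and the
numbers `b` have few deviations.  The numbers are not necessarily moduli.
-/

namespace Vale.P028.SK

open Finset CF

variable {g : Cfg}

/-- numbers with equal exponents above `p` are in one cell of level `p` -/
theorem cell_of_same' {p a b : ℕ} (h : SameAbove p a b) :
    NT.cell g.V (f g) (thr g) (N g) p a = NT.cell g.V (f g) (thr g) (N g) p b := by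
  unfold NT.cell
  have key : ∀ d : ℕ, d ≤ N g - p →
      NT.CI g.V (f g) (thr g) (N g) d a = NT.CI g.V (f g) (thr g) (N g) d b := by
    intro d
    induction d with
    | zero => intro _; rfl
    | succ d ih =>
      intro hd
      rw [NT.CI_succ, NT.CI_succ, ih (by omega), h (N g - d) (by omega)]
  exact key _ le_rfl

/-- an alive pair of numbers: at the primes `> zs` the larger exponent is a deficit -/
def AlN (g : Cfg) (a b : ℕ) : Prop := ∀ p : ℕ, p.Prime → zs g < p →
  (b.factorization p < a.factorization p → a.factorization p < kc g a p) ∧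
  (a.factorization p < b.factorization p → b.factorization p < kc g b p)

theorem AlN.symm {a b : ℕ} (h : AlN g a b) : AlN g b a := fun p hp hz =>
  ⟨(h p hp hz).2, (h p hp hz).1⟩

open Classical in
theorem xT_H1' {y B a p b b' : ℕ} (h : SameAbove p b b') :
    xT g y B a p b = xT g y B a p b' := by
  have h1 := cell_of_same' (g := g) h
  have h2 : Off g a p b' ↔ Off g a p b := by
    unfold Off
    rw [h1]
  unfold xT
  exact if_congr (or_congr Iff.rfl (or_congr Iff.rfl (or_congr Iff.rfl h2.symm))) rfl rfl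

theorem kc_split {a p : ℕ} (hpN : p ≤ N g)
    (hs : NT.Split (f g) (thr g) (NT.cell g.V (f g) (thr g) (N g) p a) p) :
    kc g a p = a.factorization p := by
  unfold kc NT.kN
  rw [if_pos hpN]
  exact NT.kk_of_split hs

theorem kc_not_split {a p : ℕ} (hpN : p ≤ N g)
    (hs : ¬ NT.Split (f g) (thr g) (NT.cell g.V (f g) (thr g) (N g) p a) p) :
    kc g a p = NT.dom (f g) (NT.cell g.V (f g) (thr g) (N g) p a) p := by
  unfold kc NT.kN
  rw [if_pos hpN]
  exact NT.kk_of_not_split hs

theorem kc_gt {a p : ℕ} (hpN : N g < p) : kc g a p = 0 := by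
  unfold kc NT.kN
  rw [if_neg (not_le.2 hpN)]

/-- a free exponent is paid -/
theorem xT_H2' {a b p : ℕ} (hA : AlN g a b) (hp : p.Prime)
    (hx : xT g (zs g) 1 a p b = 0) : b.factorization p = a.factorization p := by
  have hp0 : (0 : ℝ) < p := by exact_mod_cast hp.pos
  have hno : ¬ (p ≤ zs g ∨ p ∣ 1 ∨ a.factorization p ≠ kc g a p ∨ Off g a p b) := by
    intro h
    unfold xT at hx
    rw [if_pos h] at hx
    have : (0 : ℝ) < 8 * (p : ℝ) ^ (-(5 / 12) : ℝ) := by positivity
    linarith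
  push Not at hno
  obtain ⟨h1, -, h3, h4⟩ := hno
  obtain ⟨a1, a2⟩ := hA p hp h1
  rcases lt_trichotomy (b.factorization p) (a.factorization p) with h | h | h
  · have := a1 h
    omega
  · exact h
  · exfalso
    have h5 := a2 h
    have hpN : p ≤ N g := by
      by_contra hcon
      rw [kc_gt (not_le.1 hcon)] at h5
      omega
    have hns : ¬ NT.Split (f g) (thr g) (NT.cell g.V (f g) (thr g) (N g) p b) p := by
      intro hs
      rw [kc_split hpN hs] at h5
      exact lt_irrefl _ h5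
    have h6 := kc_not_split hpN hns
    by_cases hce : NT.cell g.V (f g) (thr g) (N g) p b = NT.cell g.V (f g) (thr g) (N g) p a
    · have h7 : kc g a p = kc g b p := by
        rw [kc_not_split hpN hns, hce]
        rw [hce] at hns
        exact kc_not_split hpN hns
      omega
    · exact h4 ⟨hce, hns, by omega⟩

/-- the weights are nonzero only at small primes and deviations of `a` or `b` -/
theorem xT_dev' {a b p : ℕ} (hA : AlN g a b) (hp : p.Prime) (hpN : p ≤ N g)
    (hyp : zs g < p) (hx : xT g (zs g) 1 a p b ≠ 0) :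
    a.factorization p ≠ kc g a p ∨ b.factorization p ≠ kc g b p := by
  by_contra hcon
  push Not at hcon
  obtain ⟨hq', hr'⟩ := hcon
  apply hx
  unfold xT
  rw [if_neg]
  rintro (h | h | h | h)
  · omega
  · exact hp.one_lt.ne' (Nat.dvd_one.1 h)
  · exact h hq'
  · obtain ⟨h1, h2, h3⟩ := h
    have h6 := kc_not_split hpN h2
    have := (hA p hp hyp).2 (by omega)
    omega

/-- the product of the weights -/
theorem xT_prod' {a b : ℕ} (ha : WW w3 g a ≤ 1 / 2) (hb : WW w3 g b ≤ 1 / 2)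
    (hA : AlN g a b) :
    ∏ p ∈ prN (N g), (1 + xT g (zs g) 1 a p b) ≤
      Real.exp (8 + 16 * (zs g : ℝ) ^ (7 / 12 : ℝ)) := by
  classical
  have h1 : ∏ p ∈ prN (N g), (1 + xT g (zs g) 1 a p b) ≤
      Real.exp (∑ p ∈ prN (N g), xT g (zs g) 1 a p b) := by
    rw [Real.exp_sum]
    refine prod_le_prod (fun p _ => by linarith [xT_nonneg g (zs g) 1 a p b]) fun p _ => ?_
    have := Real.add_one_le_exp (xT g (zs g) 1 a p b)
    linarith
  refine h1.trans (Real.exp_le_exp.2 ?_)
  set D : ℕ → Finset ℕ := fun a => (NT.PzN (zs g) (N g)).filter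
      (fun p => a.factorization p ≠ NT.kk g.V (f g) (thr g) (N g) a p) with hD
  set S1 : Finset ℕ := Icc 1 (zs g) with hS1
  have hpt : ∀ p ∈ prN (N g), xT g (zs g) 1 a p b ≤ 8 * ((if p ∈ S1 then
      (p : ℝ) ^ (-(5 / 12) : ℝ) else 0) +
      (if p ∈ D a then (p : ℝ) ^ (-(5 / 12) : ℝ) else 0) +
      (if p ∈ D b then (p : ℝ) ^ (-(5 / 12) : ℝ) else 0)) := by
    intro p hp
    have hpp := (mem_filter.1 hp).2
    have hpN := (mem_Icc.1 (mem_filter.1 hp).1).2
    have hw : 0 ≤ (p : ℝ) ^ (-(5 / 12) : ℝ) := by positivity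
    have i1 : 0 ≤ (if p ∈ S1 then (p : ℝ) ^ (-(5 / 12) : ℝ) else 0) := by split_ifs <;> simp [hw]
    have i3 : 0 ≤ (if p ∈ D a then (p : ℝ) ^ (-(5 / 12) : ℝ) else 0) := by split_ifs <;> simp [hw]
    have i4 : 0 ≤ (if p ∈ D b then (p : ℝ) ^ (-(5 / 12) : ℝ) else 0) := by split_ifs <;> simp [hw]
    have hxle : xT g (zs g) 1 a p b ≤ 8 * (p : ℝ) ^ (-(5 / 12) : ℝ) := by
      unfold xT
      split_ifs
      · exact le_rfl
      · positivity
    by_cases hx : xT g (zs g) 1 a p b = 0
    · rw [hx]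
      linarith
    by_cases hyp : p ≤ zs g
    · rw [if_pos (mem_Icc.2 ⟨hpp.pos, hyp⟩ : p ∈ S1)] at i1 ⊢
      linarith
    have hyp' : zs g < p := not_le.1 hyp
    have hmem : ∀ c : ℕ, c.factorization p ≠ kc g c p → p ∈ D c := by
      intro c hc
      rw [hD, mem_filter, NT.mem_PzN]
      refine ⟨⟨hpp, by omega, hpN⟩, ?_⟩
      unfold kc NT.kN at hc
      rwa [if_pos hpN] at hc
    rcases xT_dev' hA hpp hpN hyp' hx with h | h
    · rw [if_pos (hmem a h)] at i3 ⊢
      linarith
    · rw [if_pos (hmem b h)] at i4 ⊢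
      linarith
  refine (sum_le_sum hpt).trans ?_
  rw [← mul_sum, sum_add_distrib, sum_add_distrib]
  have hsub : ∀ S : Finset ℕ, ∑ p ∈ prN (N g), (if p ∈ S then (p : ℝ) ^ (-(5 / 12) : ℝ) else 0) ≤
      ∑ p ∈ S, (p : ℝ) ^ (-(5 / 12) : ℝ) := by
    intro S
    rw [← sum_filter]
    exact sum_le_sum_of_subset_of_nonneg (fun p hp => (mem_filter.1 hp).2)
      fun p _ _ => by positivity
  have hdev : ∀ c : ℕ, WW w3 g c ≤ 1 / 2 → ∑ p ∈ D c, (p : ℝ) ^ (-(5 / 12) : ℝ) ≤ 1 / 2 := by
    intro c hc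
    refine le_trans (sum_le_sum fun p hp => ?_) hc
    have h4 : (1 : ℝ) ≤ p := by
      exact_mod_cast (NT.mem_PzN.1 (mem_filter.1 hp).1).1.one_le
    exact Real.rpow_le_rpow_of_exponent_le h4 (by norm_num)
  have e1 := hsub S1
  have e3 := (hsub (D a)).trans (hdev a ha)
  have e4 := (hsub (D b)).trans (hdev b hb)
  have e5 : ∑ p ∈ S1, (p : ℝ) ^ (-(5 / 12) : ℝ) ≤ 2 * (zs g : ℝ) ^ (7 / 12 : ℝ) := by
    have := sum_Icc_rpow_le (s := 5 / 12) (by norm_num) (by norm_num) (zs g)
    rwa [show (1 : ℝ) - 5 / 12 = 7 / 12 by norm_num] at this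
  linarith

/-- the constant of the number tree -/
noncomputable def CTr (g : Cfg) : ℝ := Real.exp (8 + 16 * (zs g : ℝ) ^ (7 / 12 : ℝ))

theorem CTr_pos (g : Cfg) : 0 < CTr g := Real.exp_pos _

/-- **The row sum over alive pairs of numbers.** -/
theorem row_AlN {a : ℕ} (ha0 : 0 < a) (ha : WW w3 g a ≤ 1 / 2) {S : Finset ℕ}
    (hS : ∀ b ∈ S, 0 < b ∧ WW w3 g b ≤ 1 / 2 ∧ AlN g a b ∧
      ∀ p, N g < p → b.factorization p = 0) :
    ∑ b ∈ S, ((cofac a b * cofac b a : ℕ) : ℝ) ^ (-(5 / 12) : ℝ) ≤ CTr g := by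
  have hC := CTr_pos g
  have h1 := tree_aux a.factorization (t := 5 / 12) (by norm_num) (xT g (zs g) 1 a)
    (xT_nonneg g (zs g) 1 a) (N g) S (fun b hb => (hS b hb).1)
    (fun b hb b' hb' p hp => by rw [(hS b hb).2.2.2 p hp, (hS b' hb').2.2.2 p hp])
    (fun b _ b' _ p _ h => xT_H1' h)
    (fun b hb b' hb' p hp h hx => by
      have a1 := xT_H2' (hS b hb).2.2.1 hp hx
      have hx' : xT g (zs g) 1 a p b' = 0 := by rw [← xT_H1' h]; exact hx
      have a2 := xT_H2' (hS b' hb').2.2.1 hp hx'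
      rw [a1, a2])
    (fun b _ p hp hx => xT_H3 hp hx)
  have h2 : ∀ b ∈ S, ((cofac a b * cofac b a : ℕ) : ℝ) ^ (-(5 / 12) : ℝ) ≤
      CTr g * ∏ p ∈ prN (N g), (((p : ℝ) ^ (-(5 / 12) : ℝ)) ^
        ad (a.factorization p) (b.factorization p) / (1 + xT g (zs g) 1 a p b)) := by
    intro b hb
    obtain ⟨g1, g2, g3, -⟩ := hS b hb
    have h3 := xT_prod' ha g2 g3
    have h4 := cofac_rpow_le (N := N g) (t := 5 / 12) (by norm_num) ha0 g1
    refine h4.trans ?_
    rw [prod_div_distrib]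
    set A := ∏ p ∈ prN (N g), ((p : ℝ) ^ (-(5 / 12) : ℝ)) ^
        ad (a.factorization p) (b.factorization p) with hA
    have hA0 : 0 ≤ A := prod_nonneg fun p _ => by positivity
    have hP0 : 0 < ∏ p ∈ prN (N g), (1 + xT g (zs g) 1 a p b) :=
      prod_pos fun p _ => by linarith [xT_nonneg g (zs g) 1 a p b]
    rw [mul_div_assoc', le_div_iff₀ hP0, mul_comm (CTr g)]
    exact mul_le_mul_of_nonneg_left h3 hA0
  refine (sum_le_sum h2).trans ?_
  rw [← mul_sum]
  calc CTr g * _ ≤ CTr g * 1 := mul_le_mul_of_nonneg_left h1 hC.le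
    _ = CTr g := mul_one _

end Vale.P028.SK
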