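import Vale.Agent.P028.MathlibUsed
import Vale.Agent.P028.H309.OldTree
import Vale.Agent.P028.H232.Fr
import Vale.Agent.P028.H383.TAd
attribute [-instance] ProperSMul.toContinuousSMul IsTopologicalTorsor.toContinuousSMul IdemSemiring.toCanonicallyOrderedAdd IdemSemiring.toMulLeftMono IdemSemiring.toMulRightMono AddQuantale.instAddLeftMono AddQuantale.instAddRightMono Quantale.instMulLeftMono Quantale.instMulRightMono FiniteDimensional.rclike_to_real IsScalarTower.complexToReal FiniteDimensional.complexToReal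

/-!
# The sum over the starts of alive aligned pairs

`EnS_hyb`: the energy of the triples whose start is a function `c q` of the new modulus, and whose
hybrid number forms an alive pair with the partner, is bounded by the mass, whatever the number of
stages.
-/

namespace Vale.P028.SK

open Finset CF RN

variable {g : Cfg}

/-- Schur's test for two families -/
theorem schur_pair {α β : Type*} (S : Finset α) (U : Finset β) {w : α → β → ℝ}
    (hw : ∀ r ∈ S, ∀ h ∈ U, 0 ≤ w r h) (a : α → ℝ) (b : β → ℝ) {K : ℝ} (hK : 0 ≤ K)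
    (h1 : ∀ r ∈ S, ∑ h ∈ U, w r h ≤ K) (h2 : ∀ h ∈ U, ∑ r ∈ S, w r h ≤ K) :
    ∑ r ∈ S, ∑ h ∈ U, w r h * (a r * b h) ≤
      K * (Real.sqrt (∑ r ∈ S, a r ^ 2) * Real.sqrt (∑ h ∈ U, b h ^ 2)) := by
  set A := ∑ r ∈ S, a r ^ 2 with hA
  set B := ∑ h ∈ U, b h ^ 2 with hB
  have hA0 : 0 ≤ A := sum_nonneg fun _ _ => sq_nonneg _
  have hB0 : 0 ≤ B := sum_nonneg fun _ _ => sq_nonneg _
  have hcs := sum_mul_sq_le_sq_mul_sq (S ×ˢ U) (fun x => Real.sqrt (w x.1 x.2) * a x.1)
    (fun x => Real.sqrt (w x.1 x.2) * b x.2)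
  have e1 : ∑ x ∈ S ×ˢ U, Real.sqrt (w x.1 x.2) * a x.1 * (Real.sqrt (w x.1 x.2) * b x.2) =
      ∑ r ∈ S, ∑ h ∈ U, w r h * (a r * b h) := by
    rw [sum_product]
    refine sum_congr rfl fun r hr => sum_congr rfl fun h hh => ?_
    have := Real.mul_self_sqrt (hw r hr h hh)
    linear_combination (a r * b h) * this
  have e2 : ∑ x ∈ S ×ˢ U, (Real.sqrt (w x.1 x.2) * a x.1) ^ 2 ≤ K * A := by
    rw [sum_product, hA, mul_sum]
    refine sum_le_sum fun r hr => ?_
    calc ∑ h ∈ U, (Real.sqrt (w r h) * a r) ^ 2 = (∑ h ∈ U, w r h) * a r ^ 2 := by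
          rw [sum_mul]
          refine sum_congr rfl fun h hh => ?_
          rw [mul_pow, Real.sq_sqrt (hw r hr h hh)]
      _ ≤ K * a r ^ 2 := mul_le_mul_of_nonneg_right (h1 r hr) (sq_nonneg _)
  have e3 : ∑ x ∈ S ×ˢ U, (Real.sqrt (w x.1 x.2) * b x.2) ^ 2 ≤ K * B := by
    rw [sum_product_right, hB, mul_sum]
    refine sum_le_sum fun h hh => ?_
    calc ∑ r ∈ S, (Real.sqrt (w r h) * b h) ^ 2 = (∑ r ∈ S, w r h) * b h ^ 2 := by
          rw [sum_mul]
          refine sum_congr rfl fun r hr => ?_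
          rw [mul_pow, Real.sq_sqrt (hw r hr h hh)]
      _ ≤ K * b h ^ 2 := mul_le_mul_of_nonneg_right (h2 h hh) (sq_nonneg _)
  rw [e1] at hcs
  have h3 : (∑ r ∈ S, ∑ h ∈ U, w r h * (a r * b h)) ^ 2 ≤
      (K * (Real.sqrt A * Real.sqrt B)) ^ 2 := by
    calc (∑ r ∈ S, ∑ h ∈ U, w r h * (a r * b h)) ^ 2 ≤ (K * A) * (K * B) :=
          hcs.trans (mul_le_mul e2 e3 (sum_nonneg fun _ _ => sq_nonneg _)
            (mul_nonneg hK hA0))
      _ = _ := by
          rw [mul_pow, mul_pow, Real.sq_sqrt hA0, Real.sq_sqrt hB0]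
          ring
  exact le_of_sq_le_sq h3 (by positivity)

/-- a ratio determines the cofactors -/
theorem cofac_of_ratio {h r u v : ℕ} (hh : 0 < h) (hr : 0 < r) (huv : Nat.Coprime u v)
    (e : h * v = r * u) : cofac h r = u ∧ cofac r h = v := by
  have hg : 0 < Nat.gcd h r := Nat.gcd_pos_of_pos_left r hh
  obtain ⟨h', r', hcop, e1, e2⟩ := Nat.exists_coprime h r
  set d := Nat.gcd h r with hd
  have e3 : h' * v = r' * u := by
    refine Nat.eq_of_mul_eq_mul_right hg ?_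
    calc h' * v * d = (h' * d) * v := by ring
      _ = (r' * d) * u := by rw [← e1, ← e2, e]
      _ = r' * u * d := by ring
  have hh' : 0 < h' := Nat.pos_of_ne_zero fun h0 => by rw [h0, zero_mul] at e1; omega
  have hr' : 0 < r' := Nat.pos_of_ne_zero fun h0 => by rw [h0, zero_mul] at e2; omega
  have d1 : h' ∣ u := hcop.dvd_of_dvd_mul_left (by rw [← e3]; exact dvd_mul_right _ _)
  have d2 : u ∣ h' := huv.dvd_of_dvd_mul_right (by rw [e3]; exact dvd_mul_left _ _)
  have d3 : u = h' := Nat.dvd_antisymm d2 d1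
  have d4 : v = r' := by
    rw [d3, mul_comm r'] at e3
    exact Nat.eq_of_mul_eq_mul_left hh' e3
  have c1 : h / d = h' := by
    conv_lhs => rw [e1]
    exact Nat.mul_div_cancel _ hg
  have c2 : r / d = r' := by
    conv_lhs => rw [e2]
    exact Nat.mul_div_cancel _ hg
  constructor
  · rw [d3]
    exact c1
  · rw [d4]
    unfold cofac
    rw [Nat.gcd_comm r h]
    exact c2

section

variable {i q r : ℕ} (hV : g.V ⊆ Icc 1 (N g)) (hz : zs g ≤ z g i) (hq : q ∈ g.V)
  (hr : r ∈ g.V) (hc : Clean g (z g i) q r)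

include hV hz hq hr hc

/-- the cofactors of the hybrid number and the partner are the reduced cofactors -/
theorem hyb_cofac : cofac (hyb g i q r) r = rcof (z g i) (N g) (kc g q) q r ∧
    cofac r (hyb g i q r) = rcof (z g i) (N g) (kc g q) r q := by
  obtain ⟨-, -, h3, -, -⟩ := clean_cofac hV hz hq hr hc
  obtain ⟨hcell, -⟩ := clean_cross hV hz hq hr hc
  exact cofac_of_ratio (hyb_pos (mem_Icc.1 (hV hq)).1 hcell) (mem_Icc.1 (hV hr)).1 h3
    (hyb_rcof hV hz hq hr hc)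

/-- the hybrid number has few deviations -/
theorem hyb_WW (hq4 : WW w3 g q ≤ 1 / 4) (hr4 : WW w3 g r ≤ 1 / 4) :
    WW w3 g (hyb g i q r) ≤ 1 / 2 := by
  classical
  obtain ⟨hcell, -⟩ := clean_cross hV hz hq hr hc
  have hq0 : 0 < q := (mem_Icc.1 (hV hq)).1
  set D : ℕ → Finset ℕ := fun a => (NT.PzN (zs g) (N g)).filter
      (fun p => a.factorization p ≠ NT.kk g.V (f g) (thr g) (N g) a p) with hD
  have hsub : D (hyb g i q r) ⊆ D q ∪ D r := by
    intro p hp
    obtain ⟨h1, h2⟩ := mem_filter.1 hp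
    have h3 := NT.mem_PzN.1 h1
    have hk : ∀ a : ℕ, kc g a p = NT.kk g.V (f g) (thr g) (N g) a p := fun a => by
      unfold kc NT.kN
      rw [if_pos h3.2.2]
    rw [← hk, hyb_kc hq0 hcell, hyb_fac hq0 hcell] at h2
    rw [mem_union, hD, mem_filter, mem_filter, ← hk, ← hk]
    by_cases hpo : p ∈ PO (z g i) (N g)
    · rw [if_pos hpo] at h2
      have h4 := kc_congr hcell (mem_PO.1 hpo).2.1
      by_cases h5 : q.factorization p = kc g q p
      · by_cases h6 : r.factorization p = kc g r p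
        · exfalso
          apply h2
          rw [h6, h4, h5]
          omega
        · exact Or.inr ⟨h1, h6⟩
      · exact Or.inl ⟨h1, h5⟩
    · rw [if_neg hpo] at h2
      exact Or.inl ⟨h1, h2⟩
  have h1 : WW w3 g (hyb g i q r) ≤ ∑ p ∈ D q ∪ D r, w3 p :=
    sum_le_sum_of_subset_of_nonneg hsub fun p _ _ => w3_nonneg p
  have h2 := sum_union_inter (s₁ := D q) (s₂ := D r) (f := w3)
  have h3 : 0 ≤ ∑ p ∈ D q ∩ D r, w3 p := sum_nonneg fun p _ => w3_nonneg p
  have h4 : ∑ p ∈ D q, w3 p ≤ 1 / 4 := hq4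
  have h5 : ∑ p ∈ D r, w3 p ≤ 1 / 4 := hr4
  linarith

/-- the exponents of the hybrid number vanish above `N` -/
theorem hyb_fac_zero {p : ℕ} (hp : N g < p) : (hyb g i q r).factorization p = 0 := by
  obtain ⟨hcell, -⟩ := clean_cross hV hz hq hr hc
  have hq1 := mem_Icc.1 (hV hq)
  rw [hyb_fac hq1.1 hcell, if_neg fun h => by have := (mem_PO.1 h).2.2; omega]
  exact Nat.factorization_eq_zero_of_lt (by omega)

/-- **the hybrid number and the partner form an alive pair** -/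
theorem hyb_AlN (hA : ∀ p : ℕ, p.Prime → zs g < p →
      (p ∣ rcof (z g i) (N g) (kc g q) q r → p ≤ z g i ∧ q.factorization p < kc g q p) ∧
      (p ∣ rcof (z g i) (N g) (kc g q) r q → p ≤ z g i ∧ r.factorization p < kc g r p)) :
    AlN g (hyb g i q r) r := by
  intro p hp hzp
  obtain ⟨hcell, -⟩ := clean_cross hV hz hq hr hc
  have hq0 : 0 < q := (mem_Icc.1 (hV hq)).1
  have hr0 : 0 < r := (mem_Icc.1 (hV hr)).1
  have hh0 := hyb_pos hq0 hcell
  obtain ⟨c1, c2⟩ := hyb_cofac hV hz hq hr hc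
  obtain ⟨a1, a2⟩ := hA p hp hzp
  rw [← c1] at a1
  rw [← c2] at a2
  have f1 := cofac_facE hh0 hr0 p
  have f2 := cofac_facE hr0 hh0 p
  constructor
  · intro h
    obtain ⟨h1, h2⟩ := a1 (Nat.dvd_of_factorization_pos (by omega))
    have h3 : p ∉ PO (z g i) (N g) := fun h => by have := (mem_PO.1 h).2.1; omega
    rw [hyb_kc hq0 hcell, hyb_fac hq0 hcell, if_neg h3]
    exact h2
  · intro h
    exact (a2 (Nat.dvd_of_factorization_pos (by omega))).2

/-- the mass of the hybrid number -/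
theorem hyb_f : f g (hyb g i q r) * Wt g i q = f g q * Wt g i r := by
  obtain ⟨hcell, -⟩ := clean_cross hV hz hq hr hc
  obtain ⟨g1, g2⟩ := hyb_Gd hV hq hcell
  have hq0 : 0 < q := (mem_Icc.1 (hV hq)).1
  rw [f_eq_Wt_pc hz g1 g2, f_eq_Wt_pc (i := i) hz hq0 (Qc_exp hq),
    hyb_Wt hV hz hq hr hc, pcU_congr (hyb_Sf hV hz hq hr hc)]
  ring

end

/-- the weight of a pair of numbers -/
noncomputable def om5 (r h : ℕ) : ℝ := ((cofac r h * cofac h r : ℕ) : ℝ) ^ (-(5 / 12) : ℝ)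

theorem om5_nonneg (r h : ℕ) : 0 ≤ om5 r h := Real.rpow_nonneg (Nat.cast_nonneg _) _

theorem om5_comm (r h : ℕ) : om5 r h = om5 h r := by
  unfold om5
  rw [mul_comm (cofac r h)]

/-- **the bound of a term by the hybrid number** -/
theorem term_hyb (hρ : Real.exp 1 ≤ g.K.P.ρ0 ^ (-g.K.P.c0)) (hJ : JsOK g.K g.Js)
    (hX : g.Js ≤ g.X) (hV : g.V ⊆ Icc 1 (N g)) {δ : ℕ → ℕ → ℝ}
    (hδ : Om δ) {i q r : ℕ} (hq : q ∈ V1 g) (hr : r ∈ V1 g)
    {n : ℤ} (hn : n ∈ Sh g q r) (hT : TAj g i q r n) (hD : Dl g q r ≤ z g i) :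
    f g q * f g r / Dl g q r * Kd g δ q r n ≤ Real.exp 353 * 65536 *
      (Wt g i q * (Real.sqrt (f g r) * Real.sqrt (f g (hyb g i q r))) *
        om5 r (hyb g i q r)) := by
  have hqV : q ∈ g.V := (mem_filter.1 (mem_filter.1 hq).1).1
  have hrV : r ∈ g.V := (mem_filter.1 (mem_filter.1 hr).1).1
  have hz : zs g ≤ z g i := zs_le_z hJ hX i
  have hc := hT.2.2.1
  have h1 := term_TA_le hρ hJ hX hV hδ hq hr hn hT hD
  have h2 := term_TA_le hρ hJ hX hV hδ hr hq (Sh_neg hn) (hT.swap hrV) (by rw [Dl_swap]; exact hD)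
  rw [Kd_swap, Dl_swap, mul_comm (f g r) (f g q),
    rcof_swap hV hz hqV hrV hc r q] at h2
  obtain ⟨hcell, -⟩ := clean_cross hV hz hqV hrV hc
  rw [Wt_cell hcell, ← hyb_f hV hz hqV hrV hc] at h1
  have hcell' : q ∈ NT.cell g.V (f g) (thr g) (N g) (z g i) r := NT.cell_comm hqV hcell
  rw [Wt_cell hcell'] at h2
  obtain ⟨-, -, -, hu, hv⟩ := clean_cofac hV hz hqV hrV hc
  obtain ⟨c1, c2⟩ := hyb_cofac hV hz hqV hrV hc
  set h := hyb g i q r with hh
  set a := rcof (z g i) (N g) (kc g q) q r with ha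
  set b := rcof (z g i) (N g) (kc g q) r q with hb
  have ha0 : (0 : ℝ) < a := by exact_mod_cast hu
  have hb0 : (0 : ℝ) < b := by exact_mod_cast hv
  have ha1 : (1 : ℝ) ≤ a := by exact_mod_cast hu
  have hb1 : (1 : ℝ) ≤ b := by exact_mod_cast hv
  have fh := f_nonneg g h
  have fr := f_nonneg g r
  have hW := Wt_nonneg (g := g) i q
  set C := Real.exp 353 * 65536 with hC
  have hC0 : 0 < C := by positivity
  set T := f g q * f g r / Dl g q r * Kd g δ q r n with hTdef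
  have hT0 : 0 ≤ T := mul_nonneg (ff_nonneg g q r) (Kd_nonneg g hδ q r n)
  have hom : ((a : ℝ) * b) ^ (-(9 / 20) : ℝ) ≤ om5 r h := by
    unfold om5
    rw [c1, c2]
    push_cast
    rw [mul_comm (b : ℝ)]
    exact Real.rpow_le_rpow_of_exponent_le (by nlinarith) (by norm_num)
  set y : ℝ := ((a : ℝ) * b) ^ (-(9 / 20) : ℝ) with hy
  have hy0 : 0 ≤ y := by positivity
  have hy2 : (a : ℝ) ^ (-(9 / 10) : ℝ) * (b : ℝ) ^ (-(9 / 10) : ℝ) = y ^ 2 := by
    rw [hy, ← Real.mul_rpow ha0.le hb0.le, ← Real.rpow_natCast, ← Real.rpow_mul (by positivity)]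
    norm_num
  set R := Real.sqrt (f g r) * Real.sqrt (f g h) with hR
  have hR0 : 0 ≤ R := by positivity
  have hR2 : R ^ 2 = f g r * f g h := by
    rw [hR, mul_pow, Real.sq_sqrt fr, Real.sq_sqrt fh]
  have h3 : T ^ 2 ≤ (C * (Wt g i q * R * y)) ^ 2 := by
    have h4 : T * T ≤ (C * (f g h * Wt g i q * (a : ℝ) ^ (-(9 / 10) : ℝ))) *
        (C * (f g r * Wt g i q * (b : ℝ) ^ (-(9 / 10) : ℝ))) :=
      mul_le_mul h1 h2 hT0 (by positivity)
    have h5 : (C * (f g h * Wt g i q * (a : ℝ) ^ (-(9 / 10) : ℝ))) *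
        (C * (f g r * Wt g i q * (b : ℝ) ^ (-(9 / 10) : ℝ))) =
        (C * (Wt g i q * R * y)) ^ 2 := by
      calc (C * (f g h * Wt g i q * (a : ℝ) ^ (-(9 / 10) : ℝ))) *
        (C * (f g r * Wt g i q * (b : ℝ) ^ (-(9 / 10) : ℝ))) =
          C ^ 2 * Wt g i q ^ 2 * (f g r * f g h) *
            ((a : ℝ) ^ (-(9 / 10) : ℝ) * (b : ℝ) ^ (-(9 / 10) : ℝ)) := by ring
        _ = _ := by rw [hy2, ← hR2]; ring
    rw [sq, ← h5]
    exact h4
  have h6 : T ≤ C * (Wt g i q * R * y) := le_of_sq_le_sq h3 (by positivity)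
  refine h6.trans ?_
  exact mul_le_mul_of_nonneg_left (mul_le_mul_of_nonneg_left hom (by positivity)) hC0.le

open Classical in
/-- **The sum over the starts.** -/
theorem EnS_hyb (hρ : Real.exp 1 ≤ g.K.P.ρ0 ^ (-g.K.P.c0)) (hJ : JsOK g.K g.Js)
    (hX : g.Js ≤ g.X) (hV : g.V ⊆ Icc 1 (N g)) {δ : ℕ → ℕ → ℝ} (hδ : Om δ)
    {S : Finset ℕ} (hS : S ⊆ V1 g) {c : ℕ → ℕ} {T : ℕ → ℕ → ℤ → Prop}
    (hT : ∀ q ∈ S, ∀ r ∈ S, ∀ n ∈ Sh g q r, T q r n → Kd g δ q r n ≠ 0 →
      c q ≤ nst g ∧ TAj g (c q) q r n ∧ Dl g q r ≤ z g (c q) ∧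
        AlN g (hyb g (c q) q r) r) :
    EnS g S δ T ≤ Real.exp 353 * 65536 * (2 * CTr g * ∑ q ∈ S, f g q) := by
  have hSV : ∀ q ∈ S, q ∈ g.V ∧ WW w3 g q ≤ 1 / 4 := fun q hq => by
    obtain ⟨h1, h2⟩ := mem_filter.1 (hS hq)
    exact ⟨(mem_filter.1 h1).1, h2⟩
  have hz : ∀ i, zs g ≤ z g i := fun i => zs_le_z hJ hX i
  have hCT := CTr_pos g
  set C := Real.exp 353 * 65536 with hC
  have hC0 : 0 < C := by positivity
  set L : ℕ → ℕ → Prop := fun q r => ∃ n ∈ Sh g q r, T q r n ∧ Kd g δ q r n ≠ 0 with hL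
  set H : ℕ → ℕ → ℕ := fun q r => hyb g (c q) q r with hH
  -- the facts about a pair
  have hfact : ∀ q ∈ S, ∀ r ∈ S, L q r → c q ≤ nst g ∧ Clean g (z g (c q)) q r ∧
      AlN g (H q r) r := by
    rintro q hq r hr ⟨n, hn, h1, h2⟩
    obtain ⟨h3, h4, h5, h6⟩ := hT q hq r hr n hn h1 h2
    exact ⟨h3, h4.2.2.1, h6⟩
  have hpair : ∀ q ∈ S, ∀ r ∈ S, f g q * f g r / Dl g q r *
      ∑ n ∈ (Sh g q r).filter (fun n => T q r n), Kd g δ q r n ≤
      C * (if L q r then Wt g (c q) q * (Real.sqrt (f g r) * Real.sqrt (f g (H q r))) *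
        om5 r (H q r) else 0) := by
    intro q hq r hr
    by_cases hLqr : L q r
    · rw [if_pos hLqr]
      obtain ⟨n, hn1, hn2, hn3⟩ := hLqr
      obtain ⟨-, hT1, hT2, -⟩ := hT q hq r hr n hn1 hn2 hn3
      have h4 : ∑ n ∈ (Sh g q r).filter (fun n => T q r n), Kd g δ q r n = Kd g δ q r n := by
        refine sum_eq_single n (fun m hm hmn => ?_) fun h => absurd (mem_filter.2 ⟨hn1, hn2⟩) h
        by_contra h5
        obtain ⟨m1, m2⟩ := mem_filter.1 hm
        exact hmn (Al_unique (hT q hq r hr m m1 m2 h5).2.1.1 hT1.1)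
      rw [h4]
      exact term_hyb hρ hJ hX hV hδ (hS hq) (hS hr) hn1 hT1 hT2
    · rw [if_neg hLqr, mul_zero]
      have h4 : ∑ n ∈ (Sh g q r).filter (fun n => T q r n), Kd g δ q r n = 0 := by
        refine sum_eq_zero fun n hn => ?_
        by_contra h5
        exact hLqr ⟨n, (mem_filter.1 hn).1, (mem_filter.1 hn).2, h5⟩
      rw [h4, mul_zero]
  -- the universe
  set U : Finset ℕ := S ∪ ((S ×ˢ S).filter (fun x => L x.1 x.2)).image (fun x => H x.1 x.2)
    with hU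
  have hSU : S ⊆ U := subset_union_left
  have hHU : ∀ q ∈ S, ∀ r ∈ S, L q r → H q r ∈ U := fun q hq r hr h =>
    mem_union_right _ (mem_image.2 ⟨(q, r), mem_filter.2 ⟨mem_product.2 ⟨hq, hr⟩, h⟩, rfl⟩)
  have hGd : Gd g U := by
    intro y hy
    rcases mem_union.1 hy with h1 | h1
    · exact ⟨(mem_Icc.1 (hV (hSV y h1).1)).1, Qc_exp (hSV y h1).1⟩
    · obtain ⟨⟨q, r⟩, h2, rfl⟩ := mem_image.1 h1
      obtain ⟨h3, h4⟩ := mem_filter.1 h2
      obtain ⟨h5, h6⟩ := mem_product.1 h3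
      obtain ⟨-, h7, -⟩ := hfact q h5 r h6 h4
      exact hyb_Gd hV (hSV q h5).1 (clean_cross hV (hz _) (hSV q h5).1 (hSV r h6).1 h7).1
  have HN := nstU hGd hz
  set v : ℕ → ℝ := fun y => if y ∈ S then 1 else 0 with hv
  have hv0 : ∀ x ∈ U, 0 ≤ v x := fun x _ => by
    simp only [hv]
    split_ifs <;> norm_num
  set Tf : ℕ → ℝ := fun h => Db.TT U (fun i x y => Sf g i x y) (fun i y => Wt g i y) c v
    (nst g + 1) h with hTf
  have hTf0 : ∀ h, 0 ≤ Tf h := fun h => Db.TT_nonneg HN hv0 _ _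
  set w : ℕ → ℕ → ℝ := fun r h => if (∃ q ∈ S, L q r ∧ H q r = h) then om5 r h else 0 with hw
  have hw0 : ∀ r h, 0 ≤ w r h := fun r h => by
    simp only [hw]
    split_ifs
    · exact om5_nonneg _ _
    · exact le_rfl
  -- the sum over the elements with the same hybrid number
  have hTle : ∀ h, ∀ F : Finset ℕ, F ⊆ S → (∀ q ∈ F, c q ≤ nst g ∧ Sf g (c q) h q) →
      ∑ q ∈ F, Wt g (c q) q ≤ Tf h := by
    intro h F hFS hF
    have e1 : Tf h = ∑ y ∈ U, ∑ i ∈ range (nst g + 1),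
        (if Sf g i h y then Wt g i y * (if c y = i then v y else 0) else 0) := by
      rw [sum_comm]
      refine sum_congr rfl fun i _ => ?_
      unfold Db.Av Db.pt
      rw [sum_filter]
    have hnn : ∀ y i, 0 ≤ (if Sf g i h y then Wt g i y * (if c y = i then v y else 0)
        else 0 : ℝ) := by
      intro y i
      have h1 := Wt_nonneg (g := g) i y
      have h2 : 0 ≤ v y := by
        simp only [hv]
        split_ifs <;> norm_num
      split_ifs
      · exact mul_nonneg h1 h2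
      · simp
      · exact le_rfl
    rw [e1]
    refine le_trans ?_ (sum_le_sum_of_subset_of_nonneg (hFS.trans hSU) fun y _ _ =>
      sum_nonneg fun i _ => hnn y i)
    refine sum_le_sum fun q hq => ?_
    obtain ⟨h1, h2⟩ := hF q hq
    have h3 := single_le_sum (f := fun i => (if Sf g i h q then
      Wt g i q * (if c q = i then v q else 0) else 0 : ℝ)) (fun i _ => hnn q i)
      (mem_range.2 (by omega : c q < nst g + 1))
    have e5 : v q = 1 := by
      simp only [hv]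
      exact if_pos (hFS hq)
    refine le_trans (le_of_eq ?_) h3
    rw [if_pos h2, if_pos rfl, e5, mul_one]
  have key : ∀ r ∈ S, ∑ q ∈ S, (if L q r then Wt g (c q) q * (Real.sqrt (f g r) *
      Real.sqrt (f g (H q r))) * om5 r (H q r) else 0) ≤
      ∑ h ∈ U, w r h * (Real.sqrt (f g r) * (Real.sqrt (f g h) * Tf h)) := by
    intro r hr
    rw [← sum_filter]
    have hmap : ∀ q ∈ S.filter (fun q => L q r), H q r ∈ U := fun q hq =>
      hHU q (mem_filter.1 hq).1 r hr (mem_filter.1 hq).2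
    rw [← sum_fiberwise_of_maps_to hmap]
    refine sum_le_sum fun h _ => ?_
    set F := (S.filter (fun q => L q r)).filter (fun q => H q r = h) with hF
    rcases F.eq_empty_or_nonempty with h0 | ⟨q0, hq0⟩
    · rw [h0, sum_empty]
      have := hw0 r h
      have := hTf0 h
      positivity
    · have hw1 : w r h = om5 r h := by
        simp only [hw]
        rw [if_pos]
        obtain ⟨h1, h2⟩ := mem_filter.1 hq0
        exact ⟨q0, (mem_filter.1 h1).1, (mem_filter.1 h1).2, h2⟩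
      have h1 : ∑ q ∈ F, Wt g (c q) q ≤ Tf h := by
        refine hTle h F (fun q hq => (mem_filter.1 (mem_filter.1 hq).1).1) fun q hq => ?_
        obtain ⟨h1, h2⟩ := mem_filter.1 hq
        obtain ⟨h3, h4⟩ := mem_filter.1 h1
        obtain ⟨h5, h6, -⟩ := hfact q h3 r hr h4
        refine ⟨h5, ?_⟩
        rw [← h2]
        exact hyb_Sf hV (hz _) (hSV q h3).1 (hSV r hr).1 h6
      rw [hw1]
      calc ∑ q ∈ F, Wt g (c q) q * (Real.sqrt (f g r) * Real.sqrt (f g (H q r))) * om5 r (H q r)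
          = (∑ q ∈ F, Wt g (c q) q) * (Real.sqrt (f g r) * Real.sqrt (f g h) * om5 r h) := by
            rw [sum_mul]
            refine sum_congr rfl fun q hq => ?_
            rw [(mem_filter.1 hq).2]
            ring
        _ ≤ Tf h * (Real.sqrt (f g r) * Real.sqrt (f g h) * om5 r h) :=
            mul_le_mul_of_nonneg_right h1 (mul_nonneg (mul_nonneg (Real.sqrt_nonneg _)
              (Real.sqrt_nonneg _)) (om5_nonneg _ _))
        _ = _ := by ring
  -- rows and columns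
  have hrow : ∀ r ∈ S, ∑ h ∈ U, w r h ≤ CTr g := by
    intro r hr
    rw [← sum_filter]
    refine row_AlN (mem_Icc.1 (hV (hSV r hr).1)).1 (by linarith [(hSV r hr).2]) fun h hh => ?_
    obtain ⟨-, q, hq, hLq, rfl⟩ := mem_filter.1 hh
    obtain ⟨-, h6, h7⟩ := hfact q hq r hr hLq
    have hqV := (hSV q hq).1
    have hrV := (hSV r hr).1
    exact ⟨hyb_pos (mem_Icc.1 (hV hqV)).1 (clean_cross hV (hz _) hqV hrV h6).1,
      hyb_WW hV (hz _) hqV hrV h6 (hSV q hq).2 (hSV r hr).2, h7.symm,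
      fun p hp => hyb_fac_zero hV (hz _) hqV hrV h6 hp⟩
  have hcol : ∀ h ∈ U, ∑ r ∈ S, w r h ≤ CTr g := by
    intro h _
    rw [← sum_filter]
    rcases (S.filter (fun r => ∃ q ∈ S, L q r ∧ H q r = h)).eq_empty_or_nonempty with
      h0 | ⟨r0, hr0⟩
    · rw [h0, sum_empty]
      exact hCT.le
    have hh : 0 < h ∧ WW w3 g h ≤ 1 / 2 := by
      obtain ⟨hr, q, hq, hLq, rfl⟩ := mem_filter.1 hr0
      obtain ⟨-, h6, -⟩ := hfact q hq r0 hr hLq
      have hqV := (hSV q hq).1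
      have hrV := (hSV r0 hr).1
      exact ⟨hyb_pos (mem_Icc.1 (hV hqV)).1 (clean_cross hV (hz _) hqV hrV h6).1,
        hyb_WW hV (hz _) hqV hrV h6 (hSV q hq).2 (hSV r0 hr).2⟩
    have h1 := row_AlN (g := g) hh.1 hh.2
      (S := S.filter (fun r => ∃ q ∈ S, L q r ∧ H q r = h)) fun r hr => by
        obtain ⟨hrS, q, hq, hLq, hqh⟩ := mem_filter.1 hr
        obtain ⟨-, -, h7⟩ := hfact q hq r hrS hLq
        rw [hqh] at h7
        have hr1 := mem_Icc.1 (hV (hSV r hrS).1)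
        exact ⟨hr1.1, by linarith [(hSV r hrS).2], h7, fun p hp =>
          Nat.factorization_eq_zero_of_lt (by omega)⟩
    refine le_trans (le_of_eq (sum_congr rfl fun r _ => ?_)) h1
    exact om5_comm r h
  -- the Schur test
  set F := ∑ q ∈ S, f g q with hFdef
  have hF0 : 0 ≤ F := sum_nonneg fun q _ => f_nonneg g q
  have hschur := schur_pair S U (fun r _ h _ => hw0 r h) (fun r => Real.sqrt (f g r))
    (fun h => Real.sqrt (f g h) * Tf h) hCT.le hrow hcol
  have eA : ∑ r ∈ S, Real.sqrt (f g r) ^ 2 = F :=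
    sum_congr rfl fun r _ => Real.sq_sqrt (f_nonneg g r)
  have eB : ∑ h ∈ U, (Real.sqrt (f g h) * Tf h) ^ 2 ≤ 4 * F := by
    have h1 := Db.TT_norm HN hv0 (nst g + 1) (c := c)
    have h2 : ∑ x ∈ U, f g x * v x ^ 2 = F := by
      rw [hFdef, ← sum_subset hSU]
      · refine sum_congr rfl fun x hx => ?_
        simp only [hv]
        rw [if_pos hx]
        ring
      · intro x _ hx
        simp only [hv]
        rw [if_neg hx]
        ring
    rw [h2] at h1
    refine le_trans (le_of_eq (sum_congr rfl fun h _ => ?_)) h1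
    rw [mul_pow, Real.sq_sqrt (f_nonneg g h)]
  have hfin : ∑ r ∈ S, ∑ h ∈ U, w r h * (Real.sqrt (f g r) * (Real.sqrt (f g h) * Tf h)) ≤
      2 * CTr g * F := by
    refine hschur.trans ?_
    have h1 : Real.sqrt (∑ h ∈ U, (Real.sqrt (f g h) * Tf h) ^ 2) ≤ 2 * Real.sqrt F := by
      calc Real.sqrt (∑ h ∈ U, (Real.sqrt (f g h) * Tf h) ^ 2) ≤ Real.sqrt (4 * F) :=
            Real.sqrt_le_sqrt eB
        _ = 2 * Real.sqrt F := by
            rw [Real.sqrt_mul (by norm_num)]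
            congr 1
            rw [show (4 : ℝ) = 2 ^ 2 by norm_num, Real.sqrt_sq (by norm_num)]
    have h2 := Real.mul_self_sqrt hF0
    simp only [eA]
    calc CTr g * (Real.sqrt F * Real.sqrt (∑ h ∈ U, (Real.sqrt (f g h) * Tf h) ^ 2)) ≤
          CTr g * (Real.sqrt F * (2 * Real.sqrt F)) := by gcongr
      _ = 2 * CTr g * F := by linear_combination (2 * CTr g) * h2
  unfold EnS
  calc ∑ q ∈ S, ∑ r ∈ S.erase q, f g q * f g r / Dl g q r *
        ∑ n ∈ (Sh g q r).filter (fun n => T q r n), Kd g δ q r n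
      ≤ ∑ q ∈ S, ∑ r ∈ S, C * (if L q r then Wt g (c q) q * (Real.sqrt (f g r) *
          Real.sqrt (f g (H q r))) * om5 r (H q r) else 0) := by
        refine sum_le_sum fun q hq => ?_
        refine (sum_le_sum fun r hr => hpair q hq r (mem_of_mem_erase hr)).trans ?_
        refine sum_le_sum_of_subset_of_nonneg (erase_subset q S) fun r _ _ => ?_
        have h1 := om5_nonneg r (H q r)
        have h2 := Wt_nonneg (g := g) (c q) q
        refine mul_nonneg hC0.le ?_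
        split_ifs
        · positivity
        · exact le_rfl
    _ = C * ∑ r ∈ S, ∑ q ∈ S, (if L q r then Wt g (c q) q * (Real.sqrt (f g r) *
          Real.sqrt (f g (H q r))) * om5 r (H q r) else 0) := by
        rw [sum_comm, mul_sum]
        refine sum_congr rfl fun r _ => ?_
        rw [mul_sum]
    _ ≤ C * ∑ r ∈ S, ∑ h ∈ U, w r h * (Real.sqrt (f g r) * (Real.sqrt (f g h) * Tf h)) :=
        mul_le_mul_of_nonneg_left (sum_le_sum key) hC0.le
    _ ≤ C * (2 * CTr g * F) := mul_le_mul_of_nonneg_left hfin hC0.le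

end Vale.P028.SK
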