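import Vale.Agent.P028.MathlibUsed
import Vale.Agent.P028.H309.X2W
attribute [-instance] ProperSMul.toContinuousSMul IsTopologicalTorsor.toContinuousSMul IdemSemiring.toCanonicallyOrderedAdd IdemSemiring.toMulLeftMono IdemSemiring.toMulRightMono AddQuantale.instAddLeftMono AddQuantale.instAddRightMono Quantale.instMulLeftMono Quantale.instMulRightMono FiniteDimensional.rclike_to_real IsScalarTower.complexToReal FiniteDimensional.complexToReal

/-!
# The energy theorem at a cut with arbitrary weights of the fills, two families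
-/

namespace Vale.P028.SK

open Finset CF RN H669

variable {g : Cfg} {K K1 : ℝ} {x : ℕ}

/-- **The energy theorem at a cut, arbitrary weights**, two families,
one rest pattern and one gap -/
theorem x2pW2 {θ : ℝ} (hθ : 0 < θ) (hθ' : θ < 1) (hx : zs g ≤ x)
    {β : Type*} {S : Finset β} {nu : β → ℕ} {hl : β → ℤ} {cc : β → ℕ} {Fm : β → ℝ}
    (HF : FamX g x S nu hl Fm) {d : β → ℕ → ℝ} (hM : ∀ e ∈ S, MassW g (d e) K)
    (hcol : ColW g x S nu hl cc d K1)
    {β' : Type*} {S' : Finset β'} {nu' : β' → ℕ} {hl' : β' → ℤ} {cc' : β' → ℕ} {Fm' : β' → ℝ}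
    (HF' : FamX g x S' nu' hl' Fm') {d' : β' → ℕ → ℝ} (hM' : ∀ e ∈ S', MassW g (d' e) K)
    (hcol' : ColW g x S' nu' hl' cc' d' K1) (hK0 : 0 ≤ K) (hK1 : 0 ≤ K1)
    (a b : ℕ) (l : ℤ) (_hab : a.Coprime b) (ha : 0 < a) (hb : 0 < b)
    (I : Finset ℕ) (E : ℕ → β → β' → ℝ) (hI : ∀ i ∈ I, x ≤ z g i)
    (hE : ∀ i ∈ I, ∀ e ∈ S, ∀ e' ∈ S', 0 ≤ E i e e' ∧ (E i e e' ≠ 0 → max (cc e) (cc' e') = i ∧
      hl' e' - hl e = l ∧ ∃ u1 v1 H, PairX g x i (nu e) (nu' e') u1 a v1 b H ∧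
        E i e e' ≤ bdW g i θ (nu e) (nu' e') (d e) (d' e') (Fm e) (Fm' e') u1 a v1 b)) :
    ∑ i ∈ I, ∑ e ∈ S, ∑ e' ∈ S', E i e e' ≤ K1 * K * K * (1 / θ + 1 / (1 - θ)) *
      ((a : ℝ) * b) ^ (-(2 / 5) : ℝ) *
      ((∑ e ∈ S.filter (fun e => (a * b).primeFactors ⊆ Dvx g x (nu e)), Fm e) ^ θ *
        (∑ e ∈ S'.filter (fun e => (a * b).primeFactors ⊆ Dvx g x (nu' e)), Fm' e) ^ (1 - θ)) := by
  classical
  have hθ1 : 0 < 1 - θ := by linarith
  set D := (a * b).primeFactors with hD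
  -- trivial case
  rcases I.eq_empty_or_nonempty with hI0 | ⟨i₀, hi₀⟩
  · rw [hI0, sum_empty]
    refine mul_nonneg (mul_nonneg (by positivity) (by positivity)) (mul_nonneg
      (Real.rpow_nonneg (sum_nonneg fun e he => HF.mass e (mem_filter.1 he).1) _)
      (Real.rpow_nonneg (sum_nonneg fun e he => HF'.mass e (mem_filter.1 he).1) _))
  have hzz : ∀ j, zs g ≤ z g j := zs_le_z_of (hx.trans (hI i₀ hi₀))
  -- the families
  set SD := S.filter (fun e => D ⊆ Dvx g x (nu e)) with hSD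
  set SD' := S'.filter (fun e => D ⊆ Dvx g x (nu' e)) with hSD'
  set S2 := SD'.filter (fun e => ShP g x (nu' e) a b) with hS2
  set nu2 : β' → ℕ := fun e => nu' e / b * a with hnu2
  have hSDS : ∀ e ∈ SD, e ∈ S := fun e he => (mem_filter.1 he).1
  have hS2S : ∀ e ∈ S2, e ∈ S' ∧ ShP g x (nu' e) a b := fun e he =>
    ⟨(mem_filter.1 (mem_filter.1 he).1).1, (mem_filter.1 he).2⟩
  set n := S.sup nu + S'.sup nu2 with hn
  have hn1 : ∀ e ∈ S, nu e ≤ n := fun e he => (le_sup (f := nu) he).trans (Nat.le_add_right _ _)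
  have hn2 : ∀ e ∈ S', nu2 e ≤ n := fun e he => (le_sup (f := nu2) he).trans (Nat.le_add_left _ _)
  set U := (Icc 1 n).filter (fun y => ∀ p, (Qc g y).factorization p ≤ Eb g) with hUdef
  have hU : Gd g U := fun y hy => ⟨(mem_Icc.1 (mem_filter.1 hy).1).1, (mem_filter.1 hy).2⟩
  set Lz := S.image hl ∪ S'.image (fun e => hl' e - l) with hLz
  have hUm : ∀ {R j m : ℕ}, R ≤ n → (∀ p, (Qc g R).factorization p ≤ Eb g) → Fil g x j R m →
      R / m ∈ U := by
    intro R j m hR hq hF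
    have h2 := hF.Gd hx hq
    exact mem_filter.2 ⟨mem_Icc.2 ⟨h2.1, (Nat.div_le_self _ _).trans hR⟩, h2.2⟩
  have hgd2 : ∀ e ∈ S2, ∀ p, (Qc g (nu2 e)).factorization p ≤ Eb g := by
    intro e he p
    simp only [hnu2]
    rw [(hS2S e he).2.Qc]
    exact HF'.gd e (hS2S e he).1 p
  have hcolSD : ColW g x SD nu hl cc d K1 := fun i y S0 m hS0 h1 h2 h3 =>
    hcol i y S0 m (fun e he => hSDS e (hS0 he)) h1 h2 h3
  have hcolS2 : ColW g x S2 nu2 (fun e => hl' e - l) cc' d' K1 :=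
    hcol'.shift (fun e he => (hS2S e he).1) l (fun e he => (hS2S e he).2) hK1
  have H1 := lkXW hx (S := SD) (nu := nu) (cc := cc) (hl := hl)
    (fun e he e' he' => HF.inj e (hSDS e he) e' (hSDS e' he')) (fun e he => HF.pos e (hSDS e he))
    (fun e he => hM e (hSDS e he)) hcolSD n (U := U) (Lz := Lz)
    (fun e he m hm => hUm (hn1 e (hSDS e he)) (HF.gd e (hSDS e he)) hm)
    (fun e he => mem_union_left _ (mem_image_of_mem _ (hSDS e he))) (1 / θ)
  have H2 := lkXW hx (S := S2) (nu := nu2) (cc := cc') (hl := fun e => hl' e - l)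
    (fun e he e' he' h2 h3 => by
      have e1 := hS2S e he
      have e2 := hS2S e' he'
      refine HF'.inj e e1.1 e' e2.1 ?_ (by omega)
      simp only [hnu2] at h2
      have h4 := Nat.eq_of_mul_eq_mul_right ha h2
      rw [← Nat.div_mul_cancel e1.2.dvd, ← Nat.div_mul_cancel e2.2.dvd, h4])
    (fun e he => (hS2S e he).2.pos) (fun e he => hM' e (hS2S e he).1) hcolS2 n (U := U)
    (Lz := Lz)
    (fun e he m hm => hUm (hn2 e (hS2S e he).1) (hgd2 e he) hm)
    (fun e he => mem_union_right _ (mem_image_of_mem (fun e => hl' e - l) (hS2S e he).1))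
    (1 / (1 - θ))
  have hpq : (1 / θ).HolderConjugate (1 / (1 - θ)) := by
    rw [Real.holderConjugate_iff]
    refine ⟨by rw [lt_div_iff₀ hθ]; linarith, ?_⟩
    rw [one_div, one_div, inv_inv, inv_inv]
    ring
  have HN := nstX (Lz := Lz) hU hzz
  set ξ : β → ℝ := fun e => (Fm e / f g (nu e)) ^ θ with hξ
  set η : β' → ℝ := fun e => (Fm' e / f g (nu2 e)) ^ (1 - θ) with hη
  have hf1 : ∀ e ∈ SD, 0 < f g (nu e) := fun e he => f_posX (HF.pos e (hSDS e he))
  have hf2 : ∀ e ∈ S2, 0 < f g (nu2 e) := fun e he => f_posX (hS2S e he).2.pos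
  set w : ℝ := ((a : ℝ) * b) ^ (-(2 / 5) : ℝ) with hw
  have ha0 : (0 : ℝ) < a := by exact_mod_cast ha
  have hb0 : (0 : ℝ) < b := by exact_mod_cast hb
  have hw0 : 0 < w := Real.rpow_pos_of_pos (mul_pos ha0 hb0) _
  -- only the participants count
  have hpart : ∀ i ∈ I, ∀ e ∈ S, ∀ e' ∈ S', E i e e' ≠ 0 → e ∈ SD ∧ e' ∈ S2 := by
    intro i hi e he e' he' hne
    obtain ⟨-, -, u1, v1, H, hP, -⟩ := (hE i hi e he e' he').2 hne
    have h2 := hP.sub
    exact ⟨mem_filter.2 ⟨he, h2.1⟩, mem_filter.2 ⟨mem_filter.2 ⟨he', h2.2⟩,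
      hP.shp hx (HF.gd e he)⟩⟩
  have e0 : ∑ i ∈ I, ∑ e ∈ S, ∑ e' ∈ S', E i e e' = ∑ i ∈ I, ∑ e ∈ SD, ∑ e' ∈ S2, E i e e' := by
    refine sum_congr rfl fun i hi => ?_
    rw [← sum_subset (filter_subset _ S : SD ⊆ S)]
    · refine sum_congr rfl fun e he => ?_
      refine (sum_subset (fun e' he' => (hS2S e' he').1) fun e' he' hne => ?_).symm
      by_contra h0
      exact hne (hpart i hi e (hSDS e he) e' he' h0).2
    · intro e he hne
      refine sum_eq_zero fun e' he' => ?_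
      by_contra h0
      exact hne (hpart i hi e he e' he' h0).1
  have key := Dp.form2 HN hpq H1 H2 hK0 hK0 hK1 (ξ₁ := ξ) (ξ₂ := η)
    (fun e he => Real.rpow_nonneg (div_nonneg (HF.mass e (hSDS e he)) (hf1 e he).le) _)
    (fun e he => Real.rpow_nonneg (div_nonneg (HF'.mass e (hS2S e he).1) (hf2 e he).le) _)
    (fun e he => (hf1 e he).le) (fun e he => (hf2 e he).le) I
    (fun i e e' => w⁻¹ * E i e e') ?_
  · have s1 : ∑ e ∈ SD, f g (nu e) * ξ e ^ (1 / θ) = ∑ e ∈ SD, Fm e := by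
      refine sum_congr rfl fun e he => ?_
      have h2 := hf1 e he
      simp only [hξ]
      rw [← Real.rpow_mul (div_nonneg (HF.mass e (hSDS e he)) h2.le), mul_one_div_cancel hθ.ne',
        Real.rpow_one, mul_div_cancel₀ _ h2.ne']
    have s2 : ∑ e ∈ S2, f g (nu2 e) * η e ^ (1 / (1 - θ)) = ∑ e ∈ S2, Fm' e := by
      refine sum_congr rfl fun e he => ?_
      have h2 := hf2 e he
      simp only [hη]
      rw [← Real.rpow_mul (div_nonneg (HF'.mass e (hS2S e he).1) h2.le), mul_one_div_cancel hθ1.ne',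
        Real.rpow_one, mul_div_cancel₀ _ h2.ne']
    rw [s1, s2, one_div_one_div, one_div_one_div] at key
    have s3 : ∑ e ∈ S2, Fm' e ≤ ∑ e ∈ SD', Fm' e :=
      sum_le_sum_of_subset_of_nonneg (filter_subset _ _) fun e he _ =>
        HF'.mass e (mem_filter.1 he).1
    have s4 : 0 ≤ ∑ e ∈ S2, Fm' e := sum_nonneg fun e he => HF'.mass e (hS2S e he).1
    have s5 : ∑ i ∈ I, ∑ e ∈ SD, ∑ e' ∈ S2, w⁻¹ * E i e e' =
        w⁻¹ * ∑ i ∈ I, ∑ e ∈ SD, ∑ e' ∈ S2, E i e e' := by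
      simp only [mul_sum]
    rw [s5] at key
    rw [e0]
    have s6 : 0 ≤ ∑ e ∈ SD, Fm e := sum_nonneg fun e he => HF.mass e (hSDS e he)
    calc ∑ i ∈ I, ∑ e ∈ SD, ∑ e' ∈ S2, E i e e' =
          w * (w⁻¹ * ∑ i ∈ I, ∑ e ∈ SD, ∑ e' ∈ S2, E i e e') := by
          rw [mul_inv_cancel_left₀ hw0.ne']
      _ ≤ w * (K1 * K * K *
          (1 / θ + 1 / (1 - θ)) * ((∑ e ∈ SD, Fm e) ^ θ * (∑ e ∈ SD', Fm' e) ^ (1 - θ))) := by
          refine mul_le_mul_of_nonneg_left (key.trans ?_) hw0.le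
          refine mul_le_mul_of_nonneg_left (mul_le_mul_of_nonneg_left
            (Real.rpow_le_rpow s4 s3 hθ1.le) (Real.rpow_nonneg s6 _)) (by positivity)
      _ = _ := by ring
  · intro i hi e he e' he'
    have heS := hSDS e he
    have he'S := hS2S e' he'
    obtain ⟨hE0, hE1⟩ := hE i hi e heS e' he'S.1
    refine ⟨mul_nonneg (inv_nonneg.2 hw0.le) hE0, fun hne => ?_⟩
    have hne' : E i e e' ≠ 0 := fun h0 => hne (by rw [h0, mul_zero])
    obtain ⟨hmax, hll, u1, v1, H, hP, hbd⟩ := hE1 hne'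
    refine ⟨hmax, u1, ?_, v1, ?_, ?_, ?_, ?_, ?_⟩
    · exact mem_Icc.2 ⟨hP.fil.m_pos, (Nat.le_of_dvd hP.fil.pos hP.fil.dvd).trans (hn1 e heS)⟩
    · exact mem_Icc.2 ⟨hP.fil'.m_pos, (Nat.le_of_dvd he'S.2.pos
        ((he'S.2.fil x i v1).2 hP.fil').dvd).trans (hn2 e' he'S.1)⟩
    · exact mem_product.2 ⟨hUm (hn1 e heS) (HF.gd e heS) hP.fil,
        mem_union_left _ (mem_image_of_mem _ heS)⟩
    · exact mem_product.2 ⟨hUm (hn2 e' he'S.1) (hgd2 e' he') ((he'S.2.fil x i v1).2 hP.fil'),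
        mem_union_right _ (mem_image_of_mem (fun e => hl' e - l) he'S.1)⟩
    · refine ⟨?_, ?_⟩
      · simp only [hnu2]
        rw [hP.div_eq]
        exact hP.sf.symm
      · simp only
        omega
    · -- the inequality
      have hF1 := hP.fil
      have hF2 : Fil g x i (nu2 e') v1 := (he'S.2.fil x i v1).2 hP.fil'
      have l1 : wLW g x i (nu e) (d e) u1 = wd (d e) u1 := wLW_of hF1
      have l2 : wLW g x i (nu2 e') (d' e') v1 = wd (d' e') v1 := wLW_of hF2
      have hdiv : nu2 e' / v1 = H := hP.div_eq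
      simp only
      rw [l1, l2, hdiv]
      have hWt : Wt g i H = Wt g i (nu' e') := by
        rw [← hdiv, hF2.Wt hx]
        exact he'S.2.Wt fun p hp => (hP.dev p hp).2.1
      have hWt1 : Wt g i (nu e / u1) = Wt g i (nu e) := hF1.Wt hx
      have hgH : 0 < H ∧ ∀ p, (Qc g H).factorization p ≤ Eb g := by
        rw [← hdiv]
        exact hF2.Gd hx (hgd2 e' he')
      have hg1 := hF1.Gd hx (HF.gd e heS)
      have p1 := f_eq_Wt_pc (i := i) (hzz i) hg1.1 hg1.2
      have p2 := f_eq_Wt_pc (i := i) (hzz i) hgH.1 hgH.2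
      have p3 : pcU g i H = pcU g i (nu e / u1) := pcU_congr hP.sf
      rw [hWt1] at p1
      have hku1 : (0 : ℝ) < u1 := by exact_mod_cast hF1.m_pos
      have hkv1 : (0 : ℝ) < v1 := by exact_mod_cast hF2.m_pos
      have hker := kernel_ineq (θ := θ) (F := Fm e) (F' := Fm' e') (W := Wt g i (nu e))
        (W' := Wt g i (nu' e')) (P1 := f g (nu e / u1)) (PH := f g H) (r := f g (nu e))
        (r' := f g (nu2 e')) (u := u1) (v := v1) (a := a) (b := b) hθ hθ' (HF.mass e heS)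
        (HF'.mass e' he'S.1) (Wt_nonneg _ _) (Wt_nonneg _ _) (f_nonneg g _) (f_nonneg g _)
        (hf1 e he) (hf2 e' he') hku1 hkv1 ha0 hb0
        (by have := f_mul_le (g := g) hg1.1 hF1.m_pos
            rwa [hF1.mul_div] at this)
        (by have e5 := f_mul_le (g := g) hgH.1 hF2.m_pos
            have e6 : H * v1 = nu2 e' := hP.H_eq
            rwa [e6] at e5)
        (by rw [p1, p2, hWt, p3]; ring)
      rw [hWt]
      have hw1 : 0 ≤ wd (d e) u1 := wd_nonneg (hM e heS).nonneg _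
      have hw2 : 0 ≤ wd (d' e') v1 := wd_nonneg (hM' e' he'S.1).nonneg _
      have hpat := pat_ineq ha hb θ
      have hXi : 0 ≤ ξ e * η e' * (f g (nu e / u1) * Wt g i (nu' e')) := by
        refine mul_nonneg (mul_nonneg ?_ ?_) (mul_nonneg (f_nonneg g _) (Wt_nonneg _ _))
        · exact Real.rpow_nonneg (div_nonneg (HF.mass e heS) (hf1 e he).le) _
        · exact Real.rpow_nonneg (div_nonneg (HF'.mass e' he'S.1) (hf2 e' he').le) _
      have hb1 : bdW g i θ (nu e) (nu' e') (d e) (d' e') (Fm e) (Fm' e') u1 a v1 b ≤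
          w * (wd (d e) u1 * wd (d' e') v1 *
            (ξ e * η e' * (f g (nu e / u1) * Wt g i (nu' e')))) := by
        unfold bdW
        calc wd (d e) u1 * wd (d' e') v1 *
              ((a : ℝ) * b) ^ (min θ (1 - θ) - 2 / 5) *
              ((Fm e * Wt g i (nu' e') / (u1 * a)) ^ θ *
                (Fm' e' * Wt g i (nu e) / (v1 * b)) ^ (1 - θ)) ≤
              wd (d e) u1 * wd (d' e') v1 *
              ((a : ℝ) * b) ^ (min θ (1 - θ) - 2 / 5) *
              ((a : ℝ) ^ (-θ) * (b : ℝ) ^ (-(1 - θ)) * ((Fm e / f g (nu e)) ^ θ *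
                (Fm' e' / f g (nu2 e')) ^ (1 - θ) * (f g (nu e / u1) * Wt g i (nu' e')))) :=
              mul_le_mul_of_nonneg_left hker (by positivity)
          _ = (((a : ℝ) * b) ^ (min θ (1 - θ) - 2 / 5) *
                ((a : ℝ) ^ (-θ) * (b : ℝ) ^ (-(1 - θ)))) *
              (wd (d e) u1 * wd (d' e') v1 *
                (ξ e * η e' * (f g (nu e / u1) * Wt g i (nu' e')))) := by
              simp only [hξ, hη]
              ring
          _ ≤ _ := mul_le_mul_of_nonneg_right hpat (mul_nonneg (mul_nonneg hw1 hw2) hXi)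
      calc w⁻¹ * E i e e' ≤ w⁻¹ * (w * (wd (d e) u1 *
            wd (d' e') v1 *
            (ξ e * η e' * (f g (nu e / u1) * Wt g i (nu' e'))))) :=
            mul_le_mul_of_nonneg_left (hbd.trans hb1) (inv_nonneg.2 hw0.le)
        _ = _ := by
            rw [inv_mul_cancel_left₀ hw0.ne']
            ring


/-! ### The weights without fills -/

theorem wd_zero {m : ℕ} (hm : m ≠ 0) (h : wd (fun _ => 0) m ≠ 0) : m = 1 := by
  by_contra h1
  refine h ?_
  obtain ⟨p, hp⟩ := Nat.nonempty_primeFactors.2 (show 1 < m by omega)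
  exact prod_eq_zero hp rfl

/-- no fills: the mass hypothesis -/
theorem massW_zero : MassW g (fun _ => 0) 1 := by
  classical
  refine ⟨fun _ => le_rfl, fun T hT => ?_⟩
  have h1 : ∀ m ∈ T, m ≠ 1 → wd (fun _ => 0) m / (m.totient : ℝ) = 0 := fun m hm hne => by
    have : wd (fun _ => 0) m = 0 := by
      by_contra h2
      exact hne (wd_zero (hT m hm).1 h2)
    rw [this, zero_div]
  by_cases h2 : 1 ∈ T
  · rw [sum_eq_single_of_mem 1 h2 h1]
    simp [wd]
  · rw [sum_eq_zero fun m hm => h1 m hm fun h3 => h2 (h3 ▸ hm)]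
    exact zero_le_one

/-- no fills: the column hypothesis -/
theorem colW_zero {β : Type*} {S : Finset β} {nu : β → ℕ} {hl : β → ℤ} {cc : β → ℕ} :
    ColW g x S nu hl cc (fun _ _ => 0) 1 := by
  intro i y S' m hS' hhl hinj hm
  have h1 : ∀ e ∈ S', m e = 1 := fun e he => by
    obtain ⟨-, h2, -, h3⟩ := hm e he
    exact wd_zero h2.m_pos.ne' h3
  have h2 : ∑ e ∈ S', wd (fun _ => 0) (m e) = ∑ e ∈ S', (1 : ℝ) :=
    sum_congr rfl fun e he => by rw [h1 e he]; simp [wd]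
  rw [h2, sum_const, nsmul_eq_mul, mul_one]
  have h3 : S'.card ≤ 1 := card_le_one.2 fun e he e' he' => by
    refine hinj (Finset.mem_coe.2 he) (Finset.mem_coe.2 he') ?_
    rw [(hm e he).2.2.1, (hm e' he').2.2.1, h1 e he, h1 e' he']
  exact_mod_cast h3

/-- the column hypothesis for a union of two families -/
theorem ColW.union {β : Type*} [DecidableEq β] {S S2 : Finset β} {nu : β → ℕ} {hl : β → ℤ}
    {cc : β → ℕ} {d : β → ℕ → ℝ} {K2 : ℝ} (h : ColW g x S nu hl cc d K1)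
    (h2 : ColW g x S2 nu hl cc d K2) (hd : ∀ e ∈ S2, ∀ p, 0 ≤ d e p) :
    ColW g x (S ∪ S2) nu hl cc d (K1 + K2) := by
  intro i y S' m hS' hhl hinj hm
  have e1 : S' = S'.filter (fun e => e ∈ S) ∪ S'.filter (fun e => e ∈ S2) := by
    ext e
    simp only [mem_union, mem_filter]
    constructor
    · intro he
      rcases mem_union.1 (hS' he) with h3 | h3
      · exact Or.inl ⟨he, h3⟩
      · exact Or.inr ⟨he, h3⟩
    · rintro (h3 | h3)
      · exact h3.1
      · exact h3.1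
  have e2 : ∑ e ∈ S', wd (d e) (m e) ≤ ∑ e ∈ S'.filter (fun e => e ∈ S), wd (d e) (m e) +
      ∑ e ∈ S'.filter (fun e => e ∈ S2), wd (d e) (m e) := by
    rw [← sum_union_inter, ← e1]
    have h3 : 0 ≤ ∑ e ∈ S'.filter (fun e => e ∈ S) ∩ S'.filter (fun e => e ∈ S2),
        wd (d e) (m e) := sum_nonneg fun e he =>
      wd_nonneg (hd e (mem_filter.1 (mem_inter.1 he).2).2) _
    linarith
  refine e2.trans (add_le_add ?_ ?_)
  · exact h i y _ m (fun e he => (mem_filter.1 he).2)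
      (fun e he e' he' => hhl e (mem_filter.1 he).1 e' (mem_filter.1 he').1)
      (hinj.mono fun e he => Finset.mem_coe.2 (mem_filter.1 (Finset.mem_coe.1 he)).1)
      fun e he => hm e (mem_filter.1 he).1
  · exact h2 i y _ m (fun e he => (mem_filter.1 he).2)
      (fun e he e' he' => hhl e (mem_filter.1 he).1 e' (mem_filter.1 he').1)
      (hinj.mono fun e he => Finset.mem_coe.2 (mem_filter.1 (Finset.mem_coe.1 he)).1)
      fun e he => hm e (mem_filter.1 he).1

theorem ColW.subset {β : Type*} {S S2 : Finset β} {nu : β → ℕ} {hl : β → ℤ}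
    {cc : β → ℕ} {d : β → ℕ → ℝ} (h : ColW g x S nu hl cc d K1) (hS : S2 ⊆ S) :
    ColW g x S2 nu hl cc d K1 := fun i y S' m hS' h1 h2 h3 => h i y S' m (hS'.trans hS) h1 h2 h3

theorem ColW.mono {β : Type*} {S : Finset β} {nu : β → ℕ} {hl : β → ℤ}
    {cc : β → ℕ} {d : β → ℕ → ℝ} {K2 : ℝ} (h : ColW g x S nu hl cc d K1) (hK : K1 ≤ K2) :
    ColW g x S nu hl cc d K2 := fun i y S' m hS' h1 h2 h3 => (h i y S' m hS' h1 h2 h3).trans hK

/-! ### The trivial pattern, all gaps -/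

/-- the pair with the trivial rest pattern -/
theorem PairX.triv {i R R' u1 v1 : ℕ} (hf : Fil g x i R u1) (hf' : Fil g x i R' v1)
    (hs : Sf g i (R' / v1) (R / u1)) : PairX g x i R R' u1 1 v1 1 (R' / v1) where
  fil := hf
  fil' := hf'
  cop := Nat.coprime_one_left 1
  pos := ⟨one_pos, one_pos⟩
  dev := fun p hp => absurd hp (by rw [one_mul, Nat.primeFactors_one]; exact notMem_empty p)
  rel := rfl
  sf := hs

/-- **The energy theorem at a cut, arbitrary weights, two families**, trivial rest pattern,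
all gaps -/
theorem x2bW2 {θ : ℝ} (hθ : 0 < θ) (hθ' : θ < 1) (hx : zs g ≤ x)
    {β : Type*} {S : Finset β} {nu : β → ℕ} {hl : β → ℤ} {cc : β → ℕ} {Fm : β → ℝ}
    (HF : FamX g x S nu hl Fm) {d : β → ℕ → ℝ} (hM : ∀ e ∈ S, MassW g (d e) K)
    (hcol : ColW g x S nu hl cc d K1)
    {β' : Type*} {S' : Finset β'} {nu' : β' → ℕ} {hl' : β' → ℤ} {cc' : β' → ℕ} {Fm' : β' → ℝ}
    (HF' : FamX g x S' nu' hl' Fm') {d' : β' → ℕ → ℝ} (hM' : ∀ e ∈ S', MassW g (d' e) K)
    (hcol' : ColW g x S' nu' hl' cc' d' K1) (hK0 : 0 ≤ K) (hK1 : 0 ≤ K1)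
    {A B : ℝ} {bt : ℤ → ℝ} (hA : 0 ≤ A) (hbt : ∀ l, 0 ≤ bt l)
    (hB : ∀ T : Finset ℤ, ∑ l ∈ T, bt l ≤ B)
    (I : Finset ℕ) (E : ℕ → β → β' → ℝ) (hI : ∀ i ∈ I, x ≤ z g i)
    (hE : ∀ i ∈ I, ∀ e ∈ S, ∀ e' ∈ S', 0 ≤ E i e e' ∧ (E i e e' ≠ 0 → max (cc e) (cc' e') = i ∧
      ∃ u1 v1, Fil g x i (nu e) u1 ∧ Fil g x i (nu' e') v1 ∧ Sf g i (nu' e' / v1) (nu e / u1) ∧
        E i e e' ≤ A * bt (hl' e' - hl e) * (wd (d e) u1 * wd (d' e') v1 *
          ((Fm e * Wt g i (nu' e') / u1) ^ θ * (Fm' e' * Wt g i (nu e) / v1) ^ (1 - θ))))) :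
    ∑ i ∈ I, ∑ e ∈ S, ∑ e' ∈ S', E i e e' ≤ K1 * K * K * (1 / θ + 1 / (1 - θ)) * A * B *
      ((∑ e ∈ S, Fm e) ^ θ * (∑ e ∈ S', Fm' e) ^ (1 - θ)) := by
  classical
  have hθ1 : 0 < 1 - θ := by linarith
  set C : ℝ := K1 * K * K * (1 / θ + 1 / (1 - θ)) with hCdef
  have hC : 0 ≤ C := by positivity
  set M : ℝ := (∑ e ∈ S, Fm e) ^ θ * (∑ e ∈ S', Fm' e) ^ (1 - θ) with hM0
  have hs1 : 0 ≤ ∑ e ∈ S, Fm e := sum_nonneg fun e he => HF.mass e he
  have hs2 : 0 ≤ ∑ e ∈ S', Fm' e := sum_nonneg fun e he => HF'.mass e he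
  have hMn : 0 ≤ M := mul_nonneg (Real.rpow_nonneg hs1 _) (Real.rpow_nonneg hs2 _)
  set L : Finset ℤ := (S ×ˢ S').image (fun y => hl' y.2 - hl y.1) with hL
  have hsum : ∑ i ∈ I, ∑ e ∈ S, ∑ e' ∈ S', E i e e' =
      ∑ l ∈ L, ∑ i ∈ I, ∑ e ∈ S, ∑ e' ∈ S', (if hl' e' - hl e = l then E i e e' else 0) := by
    rw [sum_comm (s := L) (t := I)]
    refine sum_congr rfl fun i _ => ?_
    rw [sum_comm (s := L) (t := S)]
    refine sum_congr rfl fun e he => ?_
    rw [sum_comm (s := L) (t := S')]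
    refine sum_congr rfl fun e' he' => ?_
    rw [sum_ite_eq, if_pos]
    exact mem_image.2 ⟨(e, e'), mem_product.2 ⟨he, he'⟩, rfl⟩
  rw [hsum]
  have key : ∀ l ∈ L,
      ∑ i ∈ I, ∑ e ∈ S, ∑ e' ∈ S', (if hl' e' - hl e = l then E i e e' else 0) ≤
        (A * bt l) * (C * M) := by
    intro l _
    have hX := x2pW2 hθ hθ' hx HF hM hcol HF' hM' hcol' hK0 hK1 1 1 l (Nat.coprime_one_left 1)
      one_pos one_pos
      I (fun i e e' => if hl' e' - hl e = l then E i e e' / (A * bt l) else 0) hI ?_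
    · have e2 : ∑ i ∈ I, ∑ e ∈ S, ∑ e' ∈ S', (if hl' e' - hl e = l then E i e e' else 0) =
          (A * bt l) * ∑ i ∈ I, ∑ e ∈ S, ∑ e' ∈ S',
            (if hl' e' - hl e = l then E i e e' / (A * bt l) else 0) := by
        rw [mul_sum]
        refine sum_congr rfl fun i hi => ?_
        rw [mul_sum]
        refine sum_congr rfl fun e he => ?_
        rw [mul_sum]
        refine sum_congr rfl fun e' he' => ?_
        split_ifs with hk
        · by_cases hne : A * bt l = 0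
          · rw [hne, zero_mul]
            by_contra hcon
            obtain ⟨-, u1, v1, -, -, -, h4⟩ := (hE i hi e he e' he').2 hcon
            rw [hk, hne, zero_mul] at h4
            exact hcon (le_antisymm h4 (hE i hi e he e' he').1)
          · rw [mul_div_cancel₀ _ hne]
        · rw [mul_zero]
      rw [e2]
      refine mul_le_mul_of_nonneg_left ?_ (mul_nonneg hA (hbt l))
      refine hX.trans ?_
      have e3 : ((1 : ℕ) : ℝ) * ((1 : ℕ) : ℝ) = 1 := by norm_num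
      rw [e3, Real.one_rpow, mul_one]
      refine mul_le_mul_of_nonneg_left ?_ hC
      refine mul_le_mul (Real.rpow_le_rpow ?_ ?_ hθ.le) (Real.rpow_le_rpow ?_ ?_ hθ1.le)
        (Real.rpow_nonneg ?_ _) (Real.rpow_nonneg hs1 _)
      · exact sum_nonneg fun e he => HF.mass e (mem_filter.1 he).1
      · exact sum_le_sum_of_subset_of_nonneg (filter_subset _ _) fun e he _ => HF.mass e he
      · exact sum_nonneg fun e he => HF'.mass e (mem_filter.1 he).1
      · exact sum_le_sum_of_subset_of_nonneg (filter_subset _ _) fun e he _ => HF'.mass e he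
      · exact sum_nonneg fun e he => HF'.mass e (mem_filter.1 he).1
    · intro i hi e he e' he'
      have hE0 := (hE i hi e he e' he').1
      refine ⟨?_, fun hne => ?_⟩
      · show 0 ≤ (if hl' e' - hl e = l then E i e e' / (A * bt l) else 0)
        split_ifs with hk
        · exact div_nonneg hE0 (mul_nonneg hA (hbt l))
        · exact le_rfl
      · have hk : hl' e' - hl e = l := by
          by_contra hcon
          exact hne (if_neg hcon)
        have hne' : (if hl' e' - hl e = l then E i e e' / (A * bt l) else 0) ≠ 0 := hne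
        rw [if_pos hk] at hne'
        have hEne : E i e e' ≠ 0 := fun h0 => hne' (by rw [h0, zero_div])
        have hAne : A * bt l ≠ 0 := fun h0 => hne' (by rw [h0, div_zero])
        have hApos : 0 < A * bt l := lt_of_le_of_ne (mul_nonneg hA (hbt l)) (Ne.symm hAne)
        obtain ⟨h5, u1, v1, h6, h7, h8, h4⟩ := (hE i hi e he e' he').2 hEne
        rw [hk] at h4
        refine ⟨h5, hk, u1, v1, _, PairX.triv h6 h7 h8, ?_⟩
        show (if hl' e' - hl e = l then E i e e' / (A * bt l) else 0) ≤ _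
        rw [if_pos hk, div_le_iff₀ hApos]
        have e3 : ((1 : ℕ) : ℝ) * ((1 : ℕ) : ℝ) = 1 := by norm_num
        have e4 : bdW g i θ (nu e) (nu' e') (d e) (d' e') (Fm e) (Fm' e') u1 1 v1 1 =
            wd (d e) u1 * wd (d' e') v1 *
              ((Fm e * Wt g i (nu' e') / u1) ^ θ * (Fm' e' * Wt g i (nu e) / v1) ^ (1 - θ)) := by
          unfold bdW
          rw [e3, Real.one_rpow, mul_one]
          norm_num
        rw [e4]
        linarith
  calc ∑ l ∈ L,
        ∑ i ∈ I, ∑ e ∈ S, ∑ e' ∈ S', (if hl' e' - hl e = l then E i e e' else 0)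
      ≤ ∑ l ∈ L, (A * bt l) * (C * M) := sum_le_sum fun l hl' => key l hl'
    _ = (∑ l ∈ L, bt l) * (A * C * M) := by
        rw [sum_mul]
        exact sum_congr rfl fun l _ => by ring
    _ ≤ B * (A * C * M) := by
        exact mul_le_mul_of_nonneg_right (hB L) (mul_nonneg (mul_nonneg hA hC) hMn)
    _ = C * A * B * M := by ring

end Vale.P028.SK
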